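import Vale.Agent.P368.Chain

/-!
# Pigeonhole over scales, induction over the depth, asymptotics

* `dich_step`: `E = E' + 2 l + 3` with `E'` from `chain`.  Suppose both alternatives fail for `S, a, x`; put
  `X₀ = a + x`, `M_i = Γ^(2 h i) ν Γ^E' X₀`, `X_i = Γ^((2 h + 1) i) X₀`, and take the largest `i` with
  `exp (-X_i) < hi S (Γ^(2l+3) M_i) ψ` (`i = 0` qualifies; such an `i` has `Γ^(2 h i) ≤ Γ^(2l+3) M_i < card ι ≤ ν^(2h)`
  by `hi_eq_zero`, so `Γ^i < ν` and `i < ν`; `Nat.findGreatest` or `Finset.max'`; for larger indices the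
  tail bound holds).  `chain` with `X_i, M_i` gives a contradiction (`lo_mono`).
* `dich_all`: induction on `l`.  For `l + 1` and `κ`: `E` from `dich_step l (κ + 1)`, apply the hypothesis with
  `κ' = 2 (κ + 1) (E + 1)` to get `e'`; `e₁ = e' (E + 1)`, `ν = β^e₁`, `Γ = β^e'`, `e = 2 e₁`; `Dich.mono`;
  `4 β^p + 4 ≤ exp β` for large `β`.
* `main_nf`: `r ≥ 1` with `d exp (-r) ≤ ε`; `κ = 2 c (12 d + 1)`, `e` from `dich_all d κ`, `m = e (12 d + 1)`;
  for large `n` take `β` with `β^m ≤ n < (β+1)^m ≤ β^(2m)`, `β > r`; `back_vac` with `Γ = β^e` gives `A'` of degree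
  `Γ^(12 d) r < n`; `(A' *ᵥ vac) z = A' z 0 = 0` by `Loc.band`; `norm_le_nv`.
-/

namespace Vale.Agent.P368

open Matrix

theorem asym_max {P : ℕ → Prop} {ν : ℕ} (h0 : P 0) (h : ∀ i, P i → i < ν) :
    ∃ i, P i ∧ ∀ n, 1 ≤ n → ¬P (i + n) := by
  classical
  exact ⟨Nat.findGreatest P ν, Nat.findGreatest_spec (Nat.zero_le _) h0, fun n hn hp =>
    Nat.findGreatest_is_greatest (by omega) (h _ hp).le hp⟩

theorem asym_big {ι : Type} [Fintype ι] {p e β : ℕ} (he : 1 ≤ e) (h64 : 64 ≤ β)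
    (hβ : 8 * (p + 1).factorial ≤ β) (hc : Fintype.card ι ≤ β ^ p) : Big ι (β ^ e) := by
  have h1 : β ≤ β ^ e := Nat.le_self_pow (by omega) β
  refine ⟨h64.trans h1, le_trans ?_ (Real.exp_le_exp.2 (Nat.cast_le.2 h1))⟩
  refine le_trans ?_ (Real.pow_div_factorial_le_exp _ (Nat.cast_nonneg β) (p + 1))
  have h2 : 1 ≤ β ^ p := Nat.one_le_pow _ _ (by omega)
  rw [le_div_iff₀ (by positivity), pow_succ]
  have h3 : (4 * Fintype.card ι + 4) * (p + 1).factorial ≤ β ^ p * β := by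
    calc _ ≤ β ^ p * 8 * (p + 1).factorial := Nat.mul_le_mul_right _ (by omega)
      _ ≤ _ := by rw [mul_assoc]; exact Nat.mul_le_mul_left _ hβ
  exact_mod_cast h3

theorem dich_step (l h : ℕ) (hh : 1 ≤ h) : ∃ E : ℕ, ∀ (ι : Type) [Fintype ι] [DecidableEq ι]
    (c : NF ι) (Γ ν : ℕ), Big ι Γ → l + 64 ≤ Γ → 1 ≤ ν → Fintype.card ι ≤ ν ^ (2 * h) →
    (∀ i < l, Dich (c.ψ i) Γ) → Dich (c.ψ l) (ν * Γ ^ E) := by
  obtain ⟨E, hE⟩ := chain l h
  refine ⟨E + (2 * l + 3), fun ι _ _ c Γ ν hΓ hl hν hc hD S a x hx => ?_⟩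
  by_contra! hh'
  obtain ⟨h1, h2⟩ := hh'
  have hΓ1 : 1 < Γ := by omega
  have key : ∀ i, Real.exp (-((Γ ^ ((2 * h + 1) * i) * (a + x) : ℕ) : ℝ)) <
      hi S ((Γ ^ (2 * l + 3) * (Γ ^ (2 * h * i) * (ν * Γ ^ E * (a + x))) : ℕ) : ℝ) (c.ψ l) →
      Γ ^ i < ν := fun i hi' => by
    refine lt_of_pow_lt_pow_left₀ (2 * h) (Nat.zero_le _) (lt_of_lt_of_le (lt_of_le_of_lt ?_
      (lt_of_not_ge fun hh => ?_ : Γ ^ (2 * l + 3) * (Γ ^ (2 * h * i) * (ν * Γ ^ E * (a + x))) <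
        Fintype.card ι)) hc)
    · rw [← pow_mul, mul_comm i]
      exact (Nat.le_mul_of_pos_right _ (by positivity)).trans
        (Nat.le_mul_of_pos_left _ (by positivity))
    · rw [hi_eq_zero S (Nat.cast_le.2 hh)] at hi'
      exact (Real.exp_pos _).not_gt hi'
  have hX : ∀ i, a + x ≤ Γ ^ ((2 * h + 1) * i) * (a + x) := fun i =>
    Nat.le_mul_of_pos_left _ (by positivity)
  have hx' : ∀ i, Real.exp (-((Γ ^ ((2 * h + 1) * i) * (a + x) : ℕ) : ℝ)) ≤ Real.exp (-(x : ℝ)) :=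
    fun i => Real.exp_le_exp.2 (neg_le_neg (Nat.cast_le.2 ((Nat.le_add_left _ _).trans (hX i))))
  obtain ⟨i, hi1, hi2⟩ := asym_max (ν := ν)
    (P := fun i => Real.exp (-((Γ ^ ((2 * h + 1) * i) * (a + x) : ℕ) : ℝ)) <
      hi S ((Γ ^ (2 * l + 3) * (Γ ^ (2 * h * i) * (ν * Γ ^ E * (a + x))) : ℕ) : ℝ) (c.ψ l))
    (((hx' 0).trans_lt h2).trans_eq (by congr 2; ring))
    fun i hi' => (Nat.lt_pow_self hΓ1).trans (key i hi')
  rcases hE ι c Γ hΓ hl hD S (Γ ^ ((2 * h + 1) * i) * (a + x))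
    (Γ ^ (2 * h * i) * (ν * Γ ^ E * (a + x))) (le_trans (by omega) (hX i)) (by
      calc _ = Γ ^ (2 * h * i) * (Γ ^ i * Γ ^ E * (a + x)) := by ring
        _ ≤ _ := by gcongr; exact (key i hi1).le)
    (fun n hn => by
      refine le_trans (le_of_eq ?_) ((not_lt.1 (hi2 n hn)).trans_eq ?_)
      · congr 2
        ring
      · congr 3
        ring) with h3 | h3
  · exact h1.not_ge (((lo_mono S (Nat.cast_le.2 ((Nat.le_add_right _ _).trans (hX i))) _).trans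
      h3).trans (hx' i))
  · exact hi1.not_ge h3

theorem dich_all (l κ : ℕ) : ∃ e β₀ : ℕ, 1 ≤ e ∧ ∀ β, β₀ ≤ β →
    ∀ (ι : Type) [Fintype ι] [DecidableEq ι] (c : NF ι), Fintype.card ι ≤ β ^ (κ * e) →
      ∀ j < l, Dich (c.ψ j) (β ^ e) := by
  induction l generalizing κ with
  | zero => exact ⟨1, 0, le_rfl, fun _ _ _ _ _ _ _ _ h => absurd h (Nat.not_lt_zero _)⟩
  | succ l ih =>
    obtain ⟨E, hE⟩ := dich_step l (κ + 1) (by omega)
    obtain ⟨e, β₀, he, H⟩ := ih (2 * (κ + 1) * (E + 1))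
    refine ⟨2 * (e * (E + 1)), β₀ + (l + 64) + 8 * (2 * (κ + 1) * (E + 1) * e + 1).factorial,
      by nlinarith, fun β hβ ι _ _ c hc j hj => ?_⟩
    have hβ1 : 1 ≤ β := by omega
    have hc' : Fintype.card ι ≤ β ^ (2 * (κ + 1) * (E + 1) * e) :=
      hc.trans (Nat.pow_le_pow_right hβ1 (by nlinarith [Nat.zero_le (e * (E + 1))]))
    have hD := H β (by omega) ι c hc'
    rcases Nat.lt_succ_iff_lt_or_eq.1 hj with hj | rfl
    · exact (hD j hj).mono (Nat.pow_le_pow_right hβ1 (by nlinarith [Nat.zero_le (e * E)]))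
    · refine (hE ι c (β ^ e) (β ^ (e * (E + 1))) (asym_big he (by omega) (by omega) hc')
        (le_trans (by omega) (Nat.le_self_pow (by omega) β)) (Nat.one_le_pow _ _ hβ1)
        (hc'.trans_eq (by ring)) hD).mono ?_
      rw [← pow_mul, ← pow_add]
      exact Nat.pow_le_pow_right hβ1 (by nlinarith)

theorem main_nf (d p : ℕ) {ε : ℝ} (hε : 0 < ε) : ∃ n₀ : ℕ, ∀ n, n₀ ≤ n →
    ∀ (ι : Type) [Fintype ι] [DecidableEq ι] (c : NF ι), Fintype.card ι ≤ n ^ p →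
      ∀ A : Op ι, Loc 1 1 A → ∀ z : Z ι, n ≤ cnt Finset.univ z →
        ‖((c.C d)ᴴ * A * c.C d) z fun _ => false‖ ≤ ε := by
  obtain ⟨r, hr, hrε⟩ : ∃ r : ℕ, 1 ≤ r ∧ d * Real.exp (-(r : ℝ)) ≤ ε := by
    obtain ⟨r, hr⟩ := exists_nat_ge (d / ε)
    refine ⟨r + 1, by omega, ?_⟩
    rw [Real.exp_neg, ← div_eq_mul_inv, div_le_comm₀ (Real.exp_pos _) hε]
    have := Real.add_one_le_exp ((r + 1 : ℕ) : ℝ)
    push_cast at this ⊢
    linarith
  obtain ⟨e, β₀, he, H⟩ := dich_all d (2 * p * (12 * d + 1))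
  have hm : e * (12 * d + 1) ≠ 0 := by positivity
  refine ⟨(β₀ + 64 + r + 8 * (2 * p * (12 * d + 1) * e + 1).factorial) ^ (e * (12 * d + 1)),
    fun n hn ι _ _ c hc A hA z hz => ?_⟩
  obtain ⟨β, h1, h2⟩ : ∃ β, β ^ (e * (12 * d + 1)) ≤ n ∧ n < (β + 1) ^ (e * (12 * d + 1)) :=
    ⟨_, Nat.pow_nthRoot_le (.inl hm), Nat.lt_pow_nthRoot_add_one hm n⟩
  have hβ := lt_of_pow_lt_pow_left₀ _ (Nat.zero_le _) (hn.trans_lt h2)
  have hc' : Fintype.card ι ≤ β ^ (2 * p * (12 * d + 1) * e) := by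
    calc _ ≤ ((β ^ 2) ^ (e * (12 * d + 1))) ^ p := hc.trans (Nat.pow_le_pow_left (h2.le.trans
          (Nat.pow_le_pow_left (by nlinarith [show 2 ≤ β by omega]) _)) _)
      _ = _ := by ring
  obtain ⟨A', hA', h3⟩ := NF.back_vac (asym_big he (by omega) (by omega) hc')
    (H β (by omega) ι c hc') hr (hA.mono' hr (Real.one_le_exp (Nat.cast_nonneg r)))
  have h4 : A' z (fun _ => false) = 0 := by
    by_contra h
    have h5 := (hA'.band Finset.univ h).1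
    rw [cnt_eq_zero.2 fun _ _ => rfl, zero_add] at h5
    have h6 : (β ^ e) ^ (12 * d) * r < β ^ (e * (12 * d + 1)) := by
      rw [pow_mul β, pow_succ _ (12 * d)]
      have h7 : β ≤ β ^ e := Nat.le_self_pow (by omega) β
      have h8 : 0 < β := by omega
      exact mul_lt_mul_of_pos_left (show r < β ^ e by omega) (by positivity)
    omega
  refine le_trans (le_of_eq ?_) (((norm_le_nv _ z).trans h3).trans hrε)
  rw [NF.ψ, vac, mulVec_mulVec, mulVec_mulVec, mulVec_single_one, mulVec_single_one, Pi.sub_apply,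
    col_apply, col_apply, h4, sub_zero]

end Vale.Agent.P368
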