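import Vale.Agent.P368.Conj

/-!
# Circuits in normal form; pulling local operators back and pushing them forward

* `back_step`: `pull j (j+1) v = refl * (tens V)ᴴ v`; `Loc.conj'`, then `conj` with `u = ψ j`, `k = Γ⁷`
  (`TP.of_dich` with `A = 1`, `m = σ = k r Γ⁵`).
* `back`: induction on `l` (for fixed `j ≤ l`), `pull j (l+1) v = pull j l (pull l (l+1) v)`.
* `fwd`: `back` with `r = s` gives `TP (pull j l u) (Γ² Γ^(12 l) s) σ` by `TP.of_dich`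
  (`l exp (-s) ≤ exp (-σ) / 2` as `2 l ≤ exp Γ`); `conj` on `refl *ᵥ pull j l u` (`TP.refl`), then `Loc.conj`.
* `fwd0`: `back_vac`, `Loc.hi_le` and `hi univ 0 vac = 0` bound `hi univ (k² Γ f) ((C l)ᴴ u)` by `l exp (-s)`;
  `proj_op` with `S = univ`, `w = Γ f`; `proj univ *ᵥ v = v 0 • vac`; `Loc.conj` by `V 0`.
-/

namespace Vale.Agent.P368

open Matrix

structure NF (ι : Type) [Fintype ι] [DecidableEq ι] where
  V : ℕ → ι → Matrix Bool Bool ℂ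
  G : ℕ → Finset (Finset ι)
  hV : ∀ j, Uni (V j)
  hG : ∀ j, Disj (G j)

variable {ι : Type} [Fintype ι] [DecidableEq ι]

/-- The state `|0 … 0⟩`. -/
noncomputable def vac : Z ι → ℂ := Pi.single (fun _ => false) 1

namespace NF

variable (c : NF ι)

noncomputable def U (j : ℕ) : Op ι := tens (c.V (j + 1)) * refl (c.G j)

noncomputable def C : ℕ → Op ι
  | 0 => tens (c.V 0)
  | j + 1 => c.U j * C j

noncomputable def ψ (j : ℕ) : Z ι → ℂ := c.C j *ᵥ vac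

/-- A vector at level `l`, seen at level `j`. -/
noncomputable def pull (j l : ℕ) (u : Z ι → ℂ) : Z ι → ℂ := c.C j *ᵥ ((c.C l)ᴴ *ᵥ u)

theorem U_left (j : ℕ) : (c.U j)ᴴ * c.U j = 1 := by
  have h := (c.hV (j + 1)).left
  rw [U, conjTranspose_mul, refl_star, Matrix.mul_assoc, ← Matrix.mul_assoc (tens _)ᴴ, h,
    Matrix.one_mul, refl_mul_self]

theorem C_left (j : ℕ) : (c.C j)ᴴ * c.C j = 1 := by
  induction j with
  | zero => exact (c.hV 0).left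
  | succ j ih =>
    rw [C, conjTranspose_mul, Matrix.mul_assoc, ← Matrix.mul_assoc (c.U j)ᴴ, c.U_left,
      Matrix.one_mul, ih]

theorem C_right (j : ℕ) : c.C j * (c.C j)ᴴ = 1 := by
  exact mul_eq_one_comm.1 (c.C_left j)

theorem nv_ψ (j : ℕ) : nv (c.ψ j) = 1 := by
  rw [ψ, nv_unitary (c.C_left j), vac, nv_single]

theorem ψ_succ (j : ℕ) : c.ψ (j + 1) = c.U j *ᵥ c.ψ j := by
  rw [ψ, ψ, C, mulVec_mulVec]

theorem pull_self (l : ℕ) (u : Z ι → ℂ) : c.pull l l u = u := by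
  rw [pull, mulVec_mulVec, c.C_right, one_mulVec]

theorem pull_sub (j l : ℕ) (u v : Z ι → ℂ) : c.pull j l (u - v) = c.pull j l u - c.pull j l v := by
  simp only [pull, mulVec_sub]

theorem back_nv_adj (l : ℕ) (u : Z ι → ℂ) : nv ((c.C l)ᴴ *ᵥ u) = nv u := by
  apply nv_unitary
  rw [conjTranspose_conjTranspose, c.C_right]

theorem back_pull_trans (i j l : ℕ) (u : Z ι → ℂ) : c.pull i j (c.pull j l u) = c.pull i l u := by
  simp only [pull]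
  rw [mulVec_mulVec _ (c.C j)ᴴ (c.C j), c.C_left, one_mulVec]

theorem back_pull_succ (j : ℕ) (u : Z ι → ℂ) :
    c.pull j (j + 1) u = (refl (c.G j) * (tens (c.V (j + 1)))ᴴ) *ᵥ u := by
  rw [pull, mulVec_mulVec, C, conjTranspose_mul, ← Matrix.mul_assoc, c.C_right, Matrix.one_mul, U,
    conjTranspose_mul, refl_star]

theorem back_U_pull (j l : ℕ) (u : Z ι → ℂ) : c.U j *ᵥ c.pull j l u = c.pull (j + 1) l u := by
  rw [pull, pull, C, mulVec_mulVec]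

theorem nv_pull (j l : ℕ) (u : Z ι → ℂ) : nv (c.pull j l u) = nv u := by
  rw [pull, nv_unitary (c.C_left j), c.back_nv_adj]

variable {c} {Γ : ℕ}

theorem back_step (hΓ : Big ι Γ) {j r : ℕ} (hD : Dich (c.ψ j) Γ) (hr : 1 ≤ r) {A : Op ι}
    (hA : L1 r A) : ∃ A', L1 (Γ ^ 12 * r) A' ∧
      nv (c.pull j (j + 1) (A *ᵥ c.ψ (j + 1)) - A' *ᵥ c.ψ j) ≤ Real.exp (-(r : ℝ)) := by
  have h64 := hΓ.h64
  have hΓ1 : 1 ≤ Γ := by omega
  have hk : 1 ≤ Γ ^ 7 := Nat.one_le_pow _ _ hΓ1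
  have hm : 1 ≤ Γ ^ 7 * r * Γ ^ 5 :=
    Nat.mul_pos (Nat.mul_pos hk hr) (Nat.one_le_pow _ _ hΓ1)
  have h1 : L1 (Γ ^ 7 * r * Γ ^ 5) (1 : Op ι) :=
    (loc_one _).mono' le_rfl (Real.one_le_exp (Nat.cast_nonneg _))
  have hT : TP (c.ψ j) (Γ ^ 2 * (Γ ^ 7 * r * Γ ^ 5)) (Γ ^ 7 * r * Γ ^ 5) := by
    refine TP.of_dich h64 hD h1 hm le_rfl ?_
    rw [one_mulVec, sub_self, nv_zero]
    positivity
  have hT' : TP (c.ψ j) ((Γ ^ 7) ^ 2 * r) (Γ ^ 7 * r * Γ ^ 5) := hT.mono (le_of_eq (by ring))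
  have hQ : L1 r ((tens (c.V (j + 1)))ᴴ * A * tens (c.V (j + 1))) := Loc.conj' hA (c.hV _)
  obtain ⟨Q', hQ', hle⟩ := conj hΓ hk hr (c.hG j) (by rw [c.nv_ψ]; norm_num) hT' hQ
  refine ⟨Q', hQ'.mono (le_of_eq (by ring)), ?_⟩
  rw [c.back_pull_succ, c.ψ_succ, U, mulVec_mulVec, mulVec_mulVec]
  simpa only [Matrix.mul_assoc] using hle

theorem back (hΓ : Big ι Γ) {j l r : ℕ} (hj : j ≤ l) (hD : ∀ i < l, Dich (c.ψ i) Γ) (hr : 1 ≤ r)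
    {A : Op ι} (hA : L1 r A) : ∃ A', L1 (Γ ^ (12 * l) * r) A' ∧
      nv (c.pull j l (A *ᵥ c.ψ l) - A' *ᵥ c.ψ j) ≤ l * Real.exp (-(r : ℝ)) := by
  have h64 := hΓ.h64
  have hΓ1 : 1 ≤ Γ := by omega
  induction l, hj using Nat.le_induction generalizing r A with
  | base =>
    refine ⟨A, hA.mono (Nat.le_mul_of_pos_left _ (Nat.one_le_pow _ _ hΓ1)), ?_⟩
    rw [c.pull_self, sub_self, nv_zero]
    positivity
  | succ l hjl ih =>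
    obtain ⟨A1, hA1, h1⟩ := back_step hΓ (hD l (Nat.lt_succ_self l)) hr hA
    have hr' : r ≤ Γ ^ 12 * r := Nat.le_mul_of_pos_left _ (Nat.one_le_pow _ _ hΓ1)
    obtain ⟨A', hA', h2⟩ := ih (fun i hi => hD i (Nat.lt_succ_of_lt hi)) (hr.trans hr') hA1
    refine ⟨A', hA'.mono (le_of_eq (by ring)), ?_⟩
    have h3 : Real.exp (-((Γ ^ 12 * r : ℕ) : ℝ)) ≤ Real.exp (-(r : ℝ)) :=
      Real.exp_le_exp.2 (neg_le_neg (by exact_mod_cast hr'))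
    have h4 := nv_sub_tri (c.pull j (l + 1) (A *ᵥ c.ψ (l + 1))) (c.pull j l (A1 *ᵥ c.ψ l))
      (A' *ᵥ c.ψ j)
    have h5 : nv (c.pull j (l + 1) (A *ᵥ c.ψ (l + 1)) - c.pull j l (A1 *ᵥ c.ψ l)) ≤
        Real.exp (-(r : ℝ)) := by
      rw [← c.back_pull_trans j l (l + 1), ← c.pull_sub, c.nv_pull]
      exact h1
    have h6 := mul_le_mul_of_nonneg_left h3 (Nat.cast_nonneg (α := ℝ) l)
    push_cast at h2 h6 ⊢
    linarith

theorem back_vac (hΓ : Big ι Γ) {l r : ℕ} (hD : ∀ i < l, Dich (c.ψ i) Γ) (hr : 1 ≤ r)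
    {A : Op ι} (hA : L1 r A) : ∃ A', L1 (Γ ^ (12 * l) * r) A' ∧
      nv ((c.C l)ᴴ *ᵥ (A *ᵥ c.ψ l) - A' *ᵥ vac) ≤ l * Real.exp (-(r : ℝ)) := by
  obtain ⟨A', hA', h⟩ := back hΓ (Nat.zero_le l) hD hr hA
  refine ⟨(tens (c.V 0))ᴴ * A' * tens (c.V 0), Loc.conj' hA' (c.hV 0), ?_⟩
  have e : (c.C l)ᴴ *ᵥ (A *ᵥ c.ψ l) - ((tens (c.V 0))ᴴ * A' * tens (c.V 0)) *ᵥ vac =
      (c.C 0)ᴴ *ᵥ (c.pull 0 l (A *ᵥ c.ψ l) - A' *ᵥ c.ψ 0) := by
    rw [mulVec_sub, pull, mulVec_mulVec _ (c.C 0)ᴴ (c.C 0), c.C_left, one_mulVec]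
    congr 1
    rw [ψ, mulVec_mulVec, mulVec_mulVec]
    rfl
  rw [e, c.back_nv_adj]
  exact h

theorem back_num {l s σ : ℕ} (hl : l ≤ Γ) (hs : σ + Γ ≤ s) :
    (l : ℝ) * Real.exp (-(s : ℝ)) ≤ Real.exp (-(σ : ℝ)) / 2 := by
  have h1 : (l : ℝ) ≤ Γ := by exact_mod_cast hl
  have h2 : (σ : ℝ) + Γ ≤ s := by exact_mod_cast hs
  have h0 : (0 : ℝ) ≤ Γ := Nat.cast_nonneg _
  have h3 : 2 * (Γ : ℝ) ≤ Real.exp Γ := by
    have h := Real.quadratic_le_exp_of_nonneg h0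
    nlinarith [sq_nonneg ((Γ : ℝ) - 1)]
  have h4 : Real.exp (-(s : ℝ)) * Real.exp Γ ≤ Real.exp (-(σ : ℝ)) := by
    rw [← Real.exp_add]
    exact Real.exp_le_exp.2 (by linarith)
  have h5 := Real.exp_pos (-(s : ℝ))
  nlinarith [mul_le_mul_of_nonneg_left h3 h5.le, mul_le_mul_of_nonneg_left h1 h5.le]

theorem fwd (hΓ : Big ι Γ) {j l s k f : ℕ} (hj : j < l) (hl : l ≤ Γ)
    (hD : ∀ i < l, Dich (c.ψ i) Γ) (hk : 1 ≤ k) (hf : 1 ≤ f) (hs : k * f * Γ ^ 5 + Γ ≤ s)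
    (hs' : Γ ^ (12 * l + 2) * s ≤ k ^ 2 * f) {A Q : Op ι} (hA : L1 s A)
    (hu : nv (A *ᵥ c.ψ l) ≤ 2) (hQ : L1 f Q) : ∃ Q', L1 (k * f * Γ ^ 5) Q' ∧
      nv (c.U j *ᵥ (Q *ᵥ c.pull j l (A *ᵥ c.ψ l)) - Q' *ᵥ c.pull (j + 1) l (A *ᵥ c.ψ l)) ≤
        Real.exp (-(f : ℝ)) := by
  have h64 := hΓ.h64
  have hΓ1 : 1 ≤ Γ := by omega
  have hs1 : 1 ≤ s := by omega
  obtain ⟨A', hA', h⟩ := back hΓ hj.le hD hs1 hA
  have hσ : 1 ≤ k * f * Γ ^ 5 := Nat.mul_pos (Nat.mul_pos hk hf) (Nat.one_le_pow _ _ hΓ1)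
  have hm : k * f * Γ ^ 5 ≤ Γ ^ (12 * l) * s :=
    le_trans (by omega) (Nat.le_mul_of_pos_left _ (Nat.one_le_pow _ _ hΓ1))
  have hT : TP (c.pull j l (A *ᵥ c.ψ l)) (Γ ^ 2 * (Γ ^ (12 * l) * s)) (k * f * Γ ^ 5) :=
    TP.of_dich h64 (hD j hj) hA' hσ hm (h.trans (back_num hl hs))
  have hT' : TP (c.pull j l (A *ᵥ c.ψ l)) (k ^ 2 * f) (k * f * Γ ^ 5) :=
    hT.mono (le_trans (le_of_eq (by ring)) hs')
  have hR : (refl (c.G j))ᴴ * refl (c.G j) = 1 := by rw [refl_star, refl_mul_self]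
  have hu' : nv (refl (c.G j) *ᵥ c.pull j l (A *ᵥ c.ψ l)) ≤ 2 := by
    rw [nv_unitary hR, c.nv_pull]
    exact hu
  obtain ⟨Q1, hQ1, hle⟩ := conj hΓ hk hf (c.hG j) hu' (hT'.refl (c.G j)) hQ
  refine ⟨tens (c.V (j + 1)) * Q1 * (tens (c.V (j + 1)))ᴴ, Loc.conj hQ1 (c.hV _), ?_⟩
  have e : c.U j *ᵥ (Q *ᵥ c.pull j l (A *ᵥ c.ψ l)) -
      (tens (c.V (j + 1)) * Q1 * (tens (c.V (j + 1)))ᴴ) *ᵥ c.pull (j + 1) l (A *ᵥ c.ψ l) =
      tens (c.V (j + 1)) *ᵥ ((refl (c.G j) * Q * refl (c.G j)) *ᵥ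
        (refl (c.G j) *ᵥ c.pull j l (A *ᵥ c.ψ l)) -
        Q1 *ᵥ (refl (c.G j) *ᵥ c.pull j l (A *ᵥ c.ψ l))) := by
    rw [← c.back_U_pull j l]
    generalize c.pull j l (A *ᵥ c.ψ l) = w
    have hV := (c.hV (j + 1)).left
    have e1 : tens (c.V (j + 1)) * Q1 * (tens (c.V (j + 1)))ᴴ * (tens (c.V (j + 1)) * refl (c.G j)) =
        tens (c.V (j + 1)) * (Q1 * refl (c.G j)) := by
      rw [Matrix.mul_assoc, ← Matrix.mul_assoc (tens _)ᴴ, hV, Matrix.one_mul, Matrix.mul_assoc]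
    have e2 : tens (c.V (j + 1)) * refl (c.G j) * Q =
        tens (c.V (j + 1)) * (refl (c.G j) * Q * refl (c.G j) * refl (c.G j)) := by
      rw [Matrix.mul_assoc (refl (c.G j) * Q), refl_mul_self, Matrix.mul_one, Matrix.mul_assoc]
    simp only [U, mulVec_sub, mulVec_mulVec, e1, e2]
  rw [e, nv_unitary (c.hV (j + 1)).left]
  exact hle

theorem back_vac_apply {z : Z ι} (hz : cnt Finset.univ z ≠ 0) : (vac : Z ι → ℂ) z = 0 := by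
  rw [vac]
  apply Pi.single_eq_of_ne
  intro h
  exact hz (cnt_eq_zero.2 fun q _ => by rw [h])

theorem back_hi_vac : hi Finset.univ 0 (vac : Z ι → ℂ) = 0 := by
  have : (fun z : Z ι => if (0 : ℝ) < (cnt Finset.univ z : ℝ) then (vac : Z ι → ℂ) z else 0) = 0 := by
    funext z
    split_ifs with h
    · apply back_vac_apply
      intro h0
      rw [h0] at h
      simp at h
    · rfl
  rw [hi, this, nv_zero]

omit [DecidableEq ι] in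
theorem back_star_vac : star (vac : Z ι → ℂ) = vac := by
  rw [vac, ← Pi.single_star, star_one]

theorem back_proj_univ (v : Z ι → ℂ) :
    proj Finset.univ *ᵥ v = v (fun _ => false) • (vac : Z ι → ℂ) := by
  funext z
  rw [proj, mulVec_diagonal, Pi.smul_apply]
  split_ifs with h
  · have hz : z = fun _ => false := funext fun q => cnt_eq_zero.1 h q (Finset.mem_univ q)
    subst hz
    simp [vac]
  · rw [back_vac_apply h]
    simp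

theorem fwd0 (hΓ : Big ι Γ) {l s k f : ℕ} (hl : l ≤ Γ)
    (hD : ∀ i < l, Dich (c.ψ i) Γ) (hk : 1 ≤ k) (hf : 1 ≤ f) (hs : k * f * Γ ^ 5 + Γ ≤ s)
    (hs' : Γ ^ (12 * l + 2) * s ≤ k ^ 2 * f) {A : Op ι} (hA : L1 s A)
    (hu : nv (A *ᵥ c.ψ l) ≤ 2) : ∃ Q, L1 (k * f * Γ ^ 5) Q ∧
      nv ((star (c.ψ l) ⬝ᵥ (A *ᵥ c.ψ l)) • c.ψ 0 - Q *ᵥ c.pull 0 l (A *ᵥ c.ψ l)) ≤
        Real.exp (-(f : ℝ)) := by
  have h64 := hΓ.h64
  have hΓ1 : 1 ≤ Γ := by omega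
  have hs1 : 1 ≤ s := by omega
  obtain ⟨A', hA', h⟩ := back_vac hΓ hD hs1 hA
  have hw : 1 ≤ Γ * f := Nat.mul_pos hΓ1 hf
  set v := (c.C l)ᴴ *ᵥ (A *ᵥ c.ψ l) with hv
  have hm : Γ ^ (12 * l) * s ≤ k ^ 2 * (Γ * f) := by
    calc Γ ^ (12 * l) * s ≤ Γ ^ (12 * l + 2) * s :=
          Nat.mul_le_mul_right _ (Nat.pow_le_pow_right hΓ1 (by omega))
      _ ≤ k ^ 2 * f := hs'
      _ ≤ k ^ 2 * (Γ * f) := Nat.mul_le_mul_left _ (Nat.le_mul_of_pos_left _ hΓ1)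
  have hhi : hi Finset.univ ((k ^ 2 * (Γ * f) : ℕ) : ℝ) v ≤
      Real.exp (-((k * f * Γ ^ 5 : ℕ) : ℝ)) / 2 := by
    have h1 := hi_anti Finset.univ (a := ((Γ ^ (12 * l) * s : ℕ) : ℝ))
      (b := ((k ^ 2 * (Γ * f) : ℕ) : ℝ)) (by exact_mod_cast hm) v
    have h2 := hi_le_add Finset.univ ((Γ ^ (12 * l) * s : ℕ) : ℝ) v (A' *ᵥ vac)
    have h3 := Loc.hi_le hA' Finset.univ 0 vac
    rw [back_hi_vac, mul_zero, zero_add] at h3
    have h4 := back_num hl hs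
    linarith
  obtain ⟨Q0, hQ0, hle⟩ := proj_op hΓ hk hw Finset.univ v
  have hsz : k * (Γ * f) * Γ ^ 3 + f ≤ k * f * Γ ^ 5 := by
    have e1 : k * (Γ * f) * Γ ^ 3 = k * f * Γ ^ 4 := by ring
    have e2 : k * f * Γ ^ 5 = k * f * Γ ^ 4 * Γ := by ring
    have e3 : f ≤ k * f * Γ ^ 4 :=
      le_trans (Nat.le_mul_of_pos_left _ hk) (Nat.le_mul_of_pos_right _ (Nat.one_le_pow _ _ hΓ1))
    rw [e1, e2]
    nlinarith
  refine ⟨tens (c.V 0) * Q0 * (tens (c.V 0))ᴴ,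
    L1.mono (Loc.conj hQ0 (c.hV 0)) (le_trans (Nat.le_add_right _ _) hsz), ?_⟩
  have e : (star (c.ψ l) ⬝ᵥ (A *ᵥ c.ψ l)) • c.ψ 0 -
      (tens (c.V 0) * Q0 * (tens (c.V 0))ᴴ) *ᵥ c.pull 0 l (A *ᵥ c.ψ l) =
      c.C 0 *ᵥ (proj Finset.univ *ᵥ v - Q0 *ᵥ v) := by
    have e1 : star (c.ψ l) ⬝ᵥ (A *ᵥ c.ψ l) = v fun _ => false := by
      rw [hv]
      generalize A *ᵥ c.ψ l = u
      rw [ψ, star_mulVec, ← dotProduct_mulVec, back_star_vac, vac, single_dotProduct, one_mul]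
    have e2 : tens (c.V 0) * Q0 * (tens (c.V 0))ᴴ * c.C 0 = c.C 0 * Q0 := by
      have hV := (c.hV 0).left
      simp only [C]
      rw [Matrix.mul_assoc, hV, Matrix.mul_one]
    rw [mulVec_sub, back_proj_univ, mulVec_smul, e1, pull, ← hv, mulVec_mulVec v, e2,
      mulVec_mulVec v, ψ]
  rw [e, nv_unitary (c.C_left 0)]
  refine hle.trans ?_
  have hnv : nv v ≤ 2 := by
    rw [hv, c.back_nv_adj]
    exact hu
  have hf' : (1 : ℝ) ≤ f := by exact_mod_cast hf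
  have hΓ' : (64 : ℝ) ≤ Γ := by exact_mod_cast h64
  have ha : Real.exp (-((Γ * f : ℕ) : ℝ)) * 4 ≤ Real.exp (-(f : ℝ)) := by
    have h4 : (4 : ℝ) ≤ Real.exp 3 := by
      have := Real.add_one_le_exp (3 : ℝ)
      linarith
    calc Real.exp (-((Γ * f : ℕ) : ℝ)) * 4 ≤ Real.exp (-((Γ * f : ℕ) : ℝ)) * Real.exp 3 :=
          mul_le_mul_of_nonneg_left h4 (Real.exp_pos _).le
      _ = Real.exp (-((Γ * f : ℕ) : ℝ) + 3) := (Real.exp_add _ _).symm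
      _ ≤ Real.exp (-(f : ℝ)) := by
          apply Real.exp_le_exp.2
          push_cast
          nlinarith
  have hb : Real.exp ((k * (Γ * f) * Γ ^ 3 : ℕ) : ℝ) * Real.exp (-((k * f * Γ ^ 5 : ℕ) : ℝ)) ≤
      Real.exp (-(f : ℝ)) := by
    rw [← Real.exp_add]
    apply Real.exp_le_exp.2
    have : ((k * (Γ * f) * Γ ^ 3 : ℕ) : ℝ) + f ≤ ((k * f * Γ ^ 5 : ℕ) : ℝ) := by
      exact_mod_cast hsz
    linarith
  have hc := mul_le_mul_of_nonneg_left hnv (Real.exp_pos (-((Γ * f : ℕ) : ℝ))).le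
  have hd := mul_le_mul_of_nonneg_left hhi (Real.exp_pos ((k * (Γ * f) * Γ ^ 3 : ℕ) : ℝ)).le
  linarith

end NF

end Vale.Agent.P368
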