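import Mathlib

/-!
# Vectors, product operators, number operators, local operators

`Loc m r A`: `A` is a linear combination, with total coefficient mass at most `r`, of product
unitaries supported on at most `m` qubits.  All `Loc` lemmas are inductions on the predicate.
-/

namespace Vale.Agent.P368

open Matrix

abbrev Z (ι : Type) : Type := ι → Bool

abbrev Op (ι : Type) : Type := Matrix (Z ι) (Z ι) ℂ

variable {ι : Type} [Fintype ι] [DecidableEq ι]

/-- The Euclidean norm. -/
noncomputable def nv (v : Z ι → ℂ) : ℝ := ‖(WithLp.toLp 2 v : EuclideanSpace ℂ (Z ι))‖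

/-- A product operator. -/
def tens (a : ι → Matrix Bool Bool ℂ) : Op ι := Matrix.of fun z y => ∏ q, a q (z q) (y q)

def Uni (a : ι → Matrix Bool Bool ℂ) : Prop := ∀ q, a q ∈ Matrix.unitaryGroup Bool ℂ

/-- The number of ones in `S`. -/
def cnt (S : Finset ι) (z : Z ι) : ℕ := (S.filter fun q => z q = true).card

/-- A function of the number operator of `S`. -/
noncomputable def dg (S : Finset ι) (g : ℝ → ℝ) : Op ι :=
  Matrix.diagonal fun z => ((g (cnt S z) : ℝ) : ℂ)

/-- The projection onto `0 … 0` on `S`. -/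
noncomputable def proj (S : Finset ι) : Op ι :=
  Matrix.diagonal fun z => if cnt S z = 0 then 1 else 0

/-- The norm of the part of `v` with at most `a` ones in `S`. -/
noncomputable def lo (S : Finset ι) (a : ℝ) (v : Z ι → ℂ) : ℝ :=
  nv fun z => if (cnt S z : ℝ) ≤ a then v z else 0

/-- The norm of the part of `v` with more than `a` ones in `S`. -/
noncomputable def hi (S : Finset ι) (a : ℝ) (v : Z ι → ℂ) : ℝ :=
  nv fun z => if a < (cnt S z : ℝ) then v z else 0

inductive Loc (m : ℕ) : ℝ → Op ι → Prop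
  | tens (a : ι → Matrix Bool Bool ℂ) (s : Finset ι) (hs : s.card ≤ m) (hu : Uni a)
      (h1 : ∀ q ∉ s, a q = 1) : Loc m 1 (tens a)
  | smul (c : ℂ) {r : ℝ} {A : Op ι} : Loc m r A → Loc m (‖c‖ * r) (c • A)
  | add {r r' : ℝ} {A B : Op ι} : Loc m r A → Loc m r' B → Loc m (r + r') (A + B)
  | mono {r r' : ℝ} {A : Op ι} : r ≤ r' → Loc m r A → Loc m r' A

/-- Size `m`: degree `m` and mass `exp m`. -/
abbrev L1 (m : ℕ) (A : Op ι) : Prop := Loc m (Real.exp m) A

/-! ### the norm -/

theorem nv_nonneg (v : Z ι → ℂ) : 0 ≤ nv v := by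
  exact norm_nonneg _

theorem nv_sq (v : Z ι → ℂ) : nv v ^ 2 = ∑ z, ‖v z‖ ^ 2 := by
  unfold nv
  rw [EuclideanSpace.norm_sq_eq]

theorem nv_zero : nv (0 : Z ι → ℂ) = 0 := by
  unfold nv
  simp

theorem nv_add_le (v w : Z ι → ℂ) : nv (v + w) ≤ nv v + nv w := by
  unfold nv
  rw [WithLp.toLp_add]
  exact norm_add_le _ _

theorem nv_sub_comm (v w : Z ι → ℂ) : nv (v - w) = nv (w - v) := by
  unfold nv
  rw [WithLp.toLp_sub, WithLp.toLp_sub]
  exact norm_sub_rev _ _

theorem nv_sub_tri (u v w : Z ι → ℂ) : nv (u - w) ≤ nv (u - v) + nv (v - w) := by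
  have : u - w = (u - v) + (v - w) := by abel
  rw [this]
  exact nv_add_le _ _

theorem nv_smul (c : ℂ) (v : Z ι → ℂ) : nv (c • v) = ‖c‖ * nv v := by
  unfold nv
  rw [WithLp.toLp_smul]
  exact norm_smul _ _

theorem nv_sum_le {κ : Type} (s : Finset κ) (v : κ → Z ι → ℂ) :
    nv (∑ k ∈ s, v k) ≤ ∑ k ∈ s, nv (v k) := by
  classical
  induction s using Finset.induction_on with
  | empty => simp [nv_zero]
  | insert a s ha ih =>
    rw [Finset.sum_insert ha, Finset.sum_insert ha]
    exact (nv_add_le _ _).trans (by linarith)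

theorem nv_mono {v w : Z ι → ℂ} (h : ∀ z, ‖v z‖ ≤ ‖w z‖) : nv v ≤ nv w := by
  have h2 : nv v ^ 2 ≤ nv w ^ 2 := by
    rw [nv_sq, nv_sq]
    exact Finset.sum_le_sum fun z _ => pow_le_pow_left₀ (norm_nonneg _) (h z) 2
  exact (pow_le_pow_iff_left₀ (nv_nonneg _) (nv_nonneg _) two_ne_zero).1 h2

theorem basic_nv_abs (w : Z ι → ℂ) : nv (fun z => ((‖w z‖ : ℝ) : ℂ)) = nv w :=
  le_antisymm (nv_mono fun z => by simp) (nv_mono fun z => by simp)

/-- Pointwise domination by a combination of three vectors. -/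
theorem nv_le_three {v w₁ w₂ w₃ : Z ι → ℂ} {a b c : ℝ} (ha : 0 ≤ a) (hb : 0 ≤ b) (hc : 0 ≤ c)
    (h : ∀ z, ‖v z‖ ≤ a * ‖w₁ z‖ + b * ‖w₂ z‖ + c * ‖w₃ z‖) :
    nv v ≤ a * nv w₁ + b * nv w₂ + c * nv w₃ := by
  have h1 : nv v ≤ nv ((a : ℂ) • (fun z => ((‖w₁ z‖ : ℝ) : ℂ)) +
      (b : ℂ) • (fun z => ((‖w₂ z‖ : ℝ) : ℂ)) + (c : ℂ) • (fun z => ((‖w₃ z‖ : ℝ) : ℂ))) := by
    refine nv_mono fun z => (h z).trans (le_of_eq ?_)
    simp only [Pi.add_apply, Pi.smul_apply, smul_eq_mul]
    have h0 : 0 ≤ a * ‖w₁ z‖ + b * ‖w₂ z‖ + c * ‖w₃ z‖ := by positivity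
    rw [← Real.norm_of_nonneg h0, ← Complex.norm_real]
    push_cast
    rfl
  refine h1.trans ((nv_add_le _ _).trans ?_)
  refine add_le_add ((nv_add_le _ _).trans (le_of_eq ?_)) (le_of_eq ?_)
  · rw [nv_smul, nv_smul, basic_nv_abs, basic_nv_abs, Complex.norm_real, Complex.norm_real,
      Real.norm_of_nonneg ha, Real.norm_of_nonneg hb]
  · rw [nv_smul, basic_nv_abs, Complex.norm_real, Real.norm_of_nonneg hc]

theorem norm_le_nv (v : Z ι → ℂ) (z : Z ι) : ‖v z‖ ≤ nv v := by
  have h2 : ‖v z‖ ^ 2 ≤ nv v ^ 2 := by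
    rw [nv_sq]
    exact Finset.single_le_sum (f := fun z => ‖v z‖ ^ 2) (fun _ _ => by positivity)
      (Finset.mem_univ z)
  exact (pow_le_pow_iff_left₀ (norm_nonneg _) (nv_nonneg _) two_ne_zero).1 h2

theorem nv_single (z : Z ι) : nv (Pi.single z (1 : ℂ) : Z ι → ℂ) = 1 := by
  have h2 : nv (Pi.single z (1 : ℂ) : Z ι → ℂ) ^ 2 = 1 ^ 2 := by
    rw [nv_sq, Finset.sum_eq_single z]
    · simp
    · intro y _ hy
      simp [Pi.single_eq_of_ne hy]
    · simp
  exact (pow_left_inj₀ (nv_nonneg _) zero_le_one two_ne_zero).1 h2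

theorem basic_nv_sq_dot (v : Z ι → ℂ) : ((nv v ^ 2 : ℝ) : ℂ) = star v ⬝ᵥ v := by
  rw [nv_sq]
  push_cast
  unfold dotProduct
  refine Finset.sum_congr rfl fun z _ => ?_
  rw [Pi.star_apply, Complex.star_def, Complex.conj_mul']

theorem nv_unitary {A : Op ι} (h : Aᴴ * A = 1) (v : Z ι → ℂ) : nv (A *ᵥ v) = nv v := by
  have h2 : nv (A *ᵥ v) ^ 2 = nv v ^ 2 := by
    have : ((nv (A *ᵥ v) ^ 2 : ℝ) : ℂ) = ((nv v ^ 2 : ℝ) : ℂ) := by
      rw [basic_nv_sq_dot, basic_nv_sq_dot, Matrix.star_mulVec, Matrix.dotProduct_mulVec,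
        Matrix.vecMul_vecMul, h, Matrix.vecMul_one]
    exact_mod_cast this
  exact (pow_left_inj₀ (nv_nonneg _) (nv_nonneg _) two_ne_zero).1 h2

/-! ### product operators -/

theorem tens_mul (a b : ι → Matrix Bool Bool ℂ) : tens a * tens b = tens (a * b) := by
  ext z y
  simp only [tens, Matrix.mul_apply, Matrix.of_apply, Pi.mul_apply]
  rw [Finset.prod_univ_sum, Fintype.piFinset_univ]
  refine Finset.sum_congr rfl fun x _ => ?_
  rw [Finset.prod_mul_distrib]

theorem tens_one : tens (1 : ι → Matrix Bool Bool ℂ) = 1 := by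
  ext z y
  simp only [tens, Matrix.of_apply, Pi.one_apply, Matrix.one_apply]
  by_cases h : z = y
  · subst h
    simp
  · rw [if_neg h]
    obtain ⟨q, hq⟩ := Function.ne_iff.1 h
    exact Finset.prod_eq_zero (Finset.mem_univ q) (if_neg hq)

theorem tens_star (a : ι → Matrix Bool Bool ℂ) : (tens a)ᴴ = tens (star a) := by
  ext z y
  simp only [tens, Matrix.conjTranspose_apply, Matrix.of_apply, Pi.star_apply, star_prod,
    Matrix.star_apply]

theorem Uni.star {a : ι → Matrix Bool Bool ℂ} (h : Uni a) : Uni (star a) := by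
  intro q
  exact Unitary.star_mem (h q)

theorem Uni.mul {a b : ι → Matrix Bool Bool ℂ} (ha : Uni a) (hb : Uni b) : Uni (a * b) := by
  intro q
  exact mul_mem (ha q) (hb q)

theorem uni_one : Uni (1 : ι → Matrix Bool Bool ℂ) := by
  intro q
  exact one_mem _

theorem Uni.left {a : ι → Matrix Bool Bool ℂ} (h : Uni a) : (tens a)ᴴ * tens a = 1 := by
  rw [tens_star, tens_mul, ← tens_one]
  congr 1
  funext q
  exact (h q).1

theorem Uni.right {a : ι → Matrix Bool Bool ℂ} (h : Uni a) : tens a * (tens a)ᴴ = 1 := by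
  rw [tens_star, tens_mul, ← tens_one]
  congr 1
  funext q
  exact (h q).2

theorem tens_ne_zero {a : ι → Matrix Bool Bool ℂ} {s : Finset ι} (h1 : ∀ q ∉ s, a q = 1)
    {z y : Z ι} (h : tens a z y ≠ 0) : ∀ q ∉ s, z q = y q := by
  intro q hq
  by_contra hne
  apply h
  simp only [tens, Matrix.of_apply]
  refine Finset.prod_eq_zero (Finset.mem_univ q) ?_
  rw [h1 q hq, Matrix.one_apply, if_neg hne]

/-- A product operator supported on `s` commutes with diagonal operators not looking at `s`. -/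
theorem tens_comm_diagonal {a : ι → Matrix Bool Bool ℂ} {s : Finset ι} (h1 : ∀ q ∉ s, a q = 1)
    {d : Z ι → ℂ} (hd : ∀ z y : Z ι, (∀ q ∉ s, z q = y q) → d z = d y) :
    tens a * diagonal d = diagonal d * tens a := by
  ext z y
  rw [Matrix.mul_diagonal, Matrix.diagonal_mul]
  by_cases h : tens a z y = 0
  · rw [h]
    simp
  · rw [hd z y (tens_ne_zero h1 h), mul_comm]

/-! ### number operators -/

theorem cnt_le (S : Finset ι) (z : Z ι) : cnt S z ≤ Fintype.card ι := by
  exact Finset.card_le_univ _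

theorem cnt_eq_zero {S : Finset ι} {z : Z ι} : cnt S z = 0 ↔ ∀ q ∈ S, z q = false := by
  unfold cnt
  rw [Finset.card_eq_zero, Finset.filter_eq_empty_iff]
  simp

theorem cnt_le_add {s : Finset ι} (S : Finset ι) {z y : Z ι} (h : ∀ q ∉ s, z q = y q) :
    cnt S z ≤ cnt S y + s.card := by
  unfold cnt
  refine le_trans (Finset.card_le_card ?_) (Finset.card_union_le _ _)
  intro q hq
  rw [Finset.mem_filter] at hq
  rw [Finset.mem_union, Finset.mem_filter]
  by_cases hs : q ∈ s
  · exact Or.inr hs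
  · exact Or.inl ⟨hq.1, by rw [← h q hs]; exact hq.2⟩

theorem lo_le_nv (S : Finset ι) (a : ℝ) (v : Z ι → ℂ) : lo S a v ≤ nv v := by
  refine nv_mono fun z => ?_
  split_ifs <;> simp

theorem hi_le_nv (S : Finset ι) (a : ℝ) (v : Z ι → ℂ) : hi S a v ≤ nv v := by
  refine nv_mono fun z => ?_
  split_ifs <;> simp

theorem lo_mono (S : Finset ι) {a b : ℝ} (h : a ≤ b) (v : Z ι → ℂ) : lo S a v ≤ lo S b v := by
  refine nv_mono fun z => ?_
  by_cases h1 : (cnt S z : ℝ) ≤ a
  · rw [if_pos h1, if_pos (h1.trans h)]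
  · rw [if_neg h1]
    simp

theorem hi_anti (S : Finset ι) {a b : ℝ} (h : a ≤ b) (v : Z ι → ℂ) : hi S b v ≤ hi S a v := by
  refine nv_mono fun z => ?_
  by_cases h1 : b < (cnt S z : ℝ)
  · rw [if_pos h1, if_pos (h.trans_lt h1)]
  · rw [if_neg h1]
    simp

theorem basic_cut_le_add (p : Z ι → Prop) [DecidablePred p] (v w : Z ι → ℂ) :
    nv (fun z => if p z then v z else 0) ≤ nv (fun z => if p z then w z else 0) + nv (v - w) := by
  have : (fun z => if p z then v z else 0) =
      (fun z => if p z then w z else 0) + (fun z => if p z then (v - w) z else 0) := by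
    funext z
    simp only [Pi.add_apply, Pi.sub_apply]
    split_ifs <;> ring
  rw [this]
  refine (nv_add_le _ _).trans (add_le_add le_rfl (nv_mono fun z => ?_))
  split_ifs <;> simp

theorem lo_le_add (S : Finset ι) (a : ℝ) (v w : Z ι → ℂ) : lo S a v ≤ lo S a w + nv (v - w) := by
  exact basic_cut_le_add _ v w

theorem hi_le_add (S : Finset ι) (a : ℝ) (v w : Z ι → ℂ) : hi S a v ≤ hi S a w + nv (v - w) := by
  exact basic_cut_le_add _ v w

theorem hi_smul (S : Finset ι) (a : ℝ) (c : ℂ) (v : Z ι → ℂ) :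
    hi S a (c • v) = ‖c‖ * hi S a v := by
  unfold hi
  rw [← nv_smul]
  congr 1
  funext z
  simp only [Pi.smul_apply, smul_eq_mul]
  split_ifs <;> simp

theorem hi_eq_zero (S : Finset ι) {a : ℝ} (h : (Fintype.card ι : ℝ) ≤ a) (v : Z ι → ℂ) :
    hi S a v = 0 := by
  unfold hi
  rw [← nv_zero (ι := ι)]
  congr 1
  funext z
  rw [if_neg]
  · rfl
  · have : (cnt S z : ℝ) ≤ Fintype.card ι := by exact_mod_cast cnt_le S z
    linarith

theorem nv_proj (S : Finset ι) (v : Z ι → ℂ) : nv (proj S *ᵥ v) = lo S 0 v := by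
  unfold lo proj
  congr 1
  funext z
  rw [Matrix.mulVec_diagonal]
  by_cases h : cnt S z = 0
  · simp [h]
  · have : ¬ ((cnt S z : ℝ) ≤ 0) := by
      have : (0 : ℝ) < cnt S z := by exact_mod_cast Nat.pos_of_ne_zero h
      linarith
    rw [if_neg h, if_neg this, zero_mul]

/-! ### local operators -/

theorem Loc.nonneg {m : ℕ} {r : ℝ} {A : Op ι} (h : Loc m r A) : 0 ≤ r := by
  induction h with
  | tens => exact zero_le_one
  | smul c _ ih => positivity
  | add _ _ ih ih' => positivity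
  | mono h _ ih => exact ih.trans h

theorem Loc.mono' {m m' : ℕ} {r r' : ℝ} {A : Op ι} (h : Loc m r A) (hm : m ≤ m') (hr : r ≤ r') :
    Loc m' r' A := by
  refine Loc.mono hr ?_
  clear hr
  induction h with
  | tens a s hs hu h1 => exact Loc.tens a s (hs.trans hm) hu h1
  | smul c _ ih => exact Loc.smul c ih
  | add _ _ ih ih' => exact Loc.add ih ih'
  | mono h _ ih => exact Loc.mono h ih

theorem L1.mono {m m' : ℕ} {A : Op ι} (h : L1 m A) (hm : m ≤ m') : L1 m' A := by
  exact Loc.mono' h hm (Real.exp_le_exp.2 (by exact_mod_cast hm))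

theorem loc_one (m : ℕ) : Loc m 1 (1 : Op ι) := by
  rw [← tens_one]
  exact Loc.tens 1 ∅ (by simp) uni_one fun _ _ => rfl

theorem loc_zero (m : ℕ) : Loc m 0 (0 : Op ι) := by
  have := Loc.smul 0 (loc_one (ι := ι) m)
  simpa using this

theorem Loc.sum {κ : Type} {s : Finset κ} {m : ℕ} {r : κ → ℝ} {A : κ → Op ι}
    (h : ∀ k ∈ s, Loc m (r k) (A k)) : Loc m (∑ k ∈ s, r k) (∑ k ∈ s, A k) := by
  classical
  induction s using Finset.induction_on with
  | empty => simpa using loc_zero m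
  | insert a s ha ih =>
    rw [Finset.sum_insert ha, Finset.sum_insert ha]
    exact Loc.add (h a (Finset.mem_insert_self _ _))
      (ih fun k hk => h k (Finset.mem_insert_of_mem hk))

theorem Loc.mul {m m' : ℕ} {r r' : ℝ} {A B : Op ι} (hA : Loc m r A) (hB : Loc m' r' B) :
    Loc (m + m') (r * r') (A * B) := by
  induction hA with
  | tens a s hs hu h1 =>
    rw [one_mul]
    induction hB with
    | tens b t ht hv h2 =>
      rw [tens_mul]
      refine Loc.tens (a * b) (s ∪ t) ((Finset.card_union_le _ _).trans (add_le_add hs ht))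
        (hu.mul hv) fun q hq => ?_
      rw [Finset.mem_union, not_or] at hq
      rw [Pi.mul_apply, h1 q hq.1, h2 q hq.2, one_mul]
    | smul c _ ih =>
      rw [Matrix.mul_smul]
      exact Loc.smul c ih
    | add _ _ ih ih' =>
      rw [Matrix.mul_add]
      exact Loc.add ih ih'
    | mono h _ ih => exact Loc.mono h ih
  | smul c _ ih =>
    rw [Matrix.smul_mul, mul_assoc]
    exact Loc.smul c ih
  | add _ _ ih ih' =>
    rw [Matrix.add_mul, add_mul]
    exact Loc.add ih ih'
  | mono h _ ih => exact Loc.mono (mul_le_mul_of_nonneg_right h hB.nonneg) ih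

theorem Loc.nv_le {m : ℕ} {r : ℝ} {A : Op ι} (h : Loc m r A) (v : Z ι → ℂ) :
    nv (A *ᵥ v) ≤ r * nv v := by
  induction h with
  | tens a s hs hu h1 => rw [nv_unitary hu.left, one_mul]
  | smul c _ ih =>
    rw [Matrix.smul_mulVec, nv_smul, mul_assoc]
    exact mul_le_mul_of_nonneg_left ih (norm_nonneg _)
  | add _ _ ih ih' =>
    rw [Matrix.add_mulVec, add_mul]
    exact (nv_add_le _ _).trans (add_le_add ih ih')
  | mono h _ ih => exact ih.trans (mul_le_mul_of_nonneg_right h (nv_nonneg _))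

theorem Loc.conj {m : ℕ} {r : ℝ} {A : Op ι} (h : Loc m r A) {a : ι → Matrix Bool Bool ℂ}
    (ha : Uni a) : Loc m r (Vale.Agent.P368.tens a * A * (Vale.Agent.P368.tens a)ᴴ) := by
  induction h with
  | tens b s hs hu h1 =>
    rw [tens_star, tens_mul, tens_mul]
    refine Loc.tens _ s hs ((ha.mul hu).mul ha.star) fun q hq => ?_
    rw [Pi.mul_apply, Pi.mul_apply, h1 q hq, mul_one]
    exact (ha q).2
  | smul c _ ih =>
    rw [Matrix.mul_smul, Matrix.smul_mul]
    exact Loc.smul c ih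
  | add _ _ ih ih' =>
    rw [Matrix.mul_add, Matrix.add_mul]
    exact Loc.add ih ih'
  | mono h _ ih => exact Loc.mono h ih

theorem Loc.conj' {m : ℕ} {r : ℝ} {A : Op ι} (h : Loc m r A) {a : ι → Matrix Bool Bool ℂ}
    (ha : Uni a) : Loc m r ((Vale.Agent.P368.tens a)ᴴ * A * Vale.Agent.P368.tens a) := by
  have := h.conj ha.star
  rwa [← tens_star, Matrix.conjTranspose_conjTranspose] at this

theorem Loc.band {m : ℕ} {r : ℝ} {A : Op ι} (h : Loc m r A) (S : Finset ι) {z y : Z ι}
    (hz : A z y ≠ 0) : cnt S z ≤ cnt S y + m ∧ cnt S y ≤ cnt S z + m := by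
  induction h with
  | tens a s hs hu h1 =>
    have h2 := tens_ne_zero h1 hz
    exact ⟨(cnt_le_add S h2).trans (by omega),
      (cnt_le_add S fun q hq => (h2 q hq).symm).trans (by omega)⟩
  | smul c _ ih =>
    refine ih fun h0 => hz ?_
    rw [Matrix.smul_apply, h0, smul_zero]
  | add _ _ ih ih' =>
    by_contra hc
    apply hz
    rw [Matrix.add_apply, not_imp_comm.1 ih hc, not_imp_comm.1 ih' hc, add_zero]
  | mono h _ ih => exact ih hz

theorem basic_cut_mulVec {m : ℕ} {r : ℝ} {A : Op ι} (h : Loc m r A) (p p' : Z ι → Prop)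
    [DecidablePred p] [DecidablePred p'] (hp : ∀ z y, A z y ≠ 0 → p z → p' y) (v : Z ι → ℂ) :
    nv (fun z => if p z then (A *ᵥ v) z else 0) ≤ r * nv (fun z => if p' z then v z else 0) := by
  refine le_trans (nv_mono fun z => ?_) (h.nv_le _)
  by_cases hz : p z
  · rw [if_pos hz]
    apply le_of_eq
    congr 1
    simp only [Matrix.mulVec, dotProduct]
    refine Finset.sum_congr rfl fun y _ => ?_
    by_cases h0 : A z y = 0
    · simp [h0]
    · rw [if_pos (hp z y h0 hz)]
  · rw [if_neg hz]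
    simp

theorem Loc.lo_le {m : ℕ} {r : ℝ} {A : Op ι} (h : Loc m r A) (S : Finset ι) (a : ℝ)
    (v : Z ι → ℂ) : lo S a (A *ᵥ v) ≤ r * lo S (a + m) v := by
  refine basic_cut_mulVec h _ _ (fun z y h0 hz => ?_) v
  have : (cnt S y : ℝ) ≤ cnt S z + m := by exact_mod_cast (h.band S h0).2
  linarith

theorem Loc.hi_le {m : ℕ} {r : ℝ} {A : Op ι} (h : Loc m r A) (S : Finset ι) (a : ℝ)
    (v : Z ι → ℂ) : hi S (a + m) (A *ᵥ v) ≤ r * hi S a v := by
  refine basic_cut_mulVec h _ _ (fun z y h0 hz => ?_) v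
  have : (cnt S z : ℝ) ≤ cnt S y + m := by exact_mod_cast (h.band S h0).1
  linarith

/-- Term by term approximation of `P A P'` on a vector. -/
theorem Loc.approx {m m' : ℕ} {c ε : ℝ} (P P' : Op ι) (u : Z ι → ℂ)
    (H : ∀ (a : ι → Matrix Bool Bool ℂ) (s : Finset ι), s.card ≤ m → Uni a →
      (∀ q ∉ s, a q = 1) → ∃ A', Loc m' c A' ∧
        nv ((P * Vale.Agent.P368.tens a * P') *ᵥ u - A' *ᵥ u) ≤ ε)
    {r : ℝ} {A : Op ι} (h : Loc m r A) :
    ∃ A', Loc m' (r * c) A' ∧ nv ((P * A * P') *ᵥ u - A' *ᵥ u) ≤ r * ε := by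
  have hc : 0 ≤ c := by
    obtain ⟨A', h1, -⟩ := H 1 ∅ (by simp) uni_one fun _ _ => rfl
    exact h1.nonneg
  have hε : 0 ≤ ε := by
    obtain ⟨A', -, h1⟩ := H 1 ∅ (by simp) uni_one fun _ _ => rfl
    exact (nv_nonneg _).trans h1
  induction h with
  | tens a s hs hu h1 =>
    rw [one_mul, one_mul]
    exact H a s hs hu h1
  | smul d _ ih =>
    obtain ⟨A', h1, h2⟩ := ih
    refine ⟨d • A', by rw [mul_assoc]; exact Loc.smul d h1, ?_⟩
    rw [Matrix.mul_smul, Matrix.smul_mul, Matrix.smul_mulVec, Matrix.smul_mulVec, ← smul_sub,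
      nv_smul, mul_assoc ‖d‖]
    exact mul_le_mul_of_nonneg_left h2 (norm_nonneg _)
  | add _ _ ih ih' =>
    obtain ⟨A', h1, h2⟩ := ih
    obtain ⟨B', h3, h4⟩ := ih'
    refine ⟨A' + B', by rw [add_mul]; exact Loc.add h1 h3, ?_⟩
    rw [Matrix.mul_add, Matrix.add_mul, Matrix.add_mulVec, Matrix.add_mulVec, add_sub_add_comm]
    refine (nv_add_le _ _).trans ?_
    linarith
  | mono h _ ih =>
    obtain ⟨A', h1, h2⟩ := ih
    exact ⟨A', Loc.mono (mul_le_mul_of_nonneg_right h hc) h1,
      h2.trans (mul_le_mul_of_nonneg_right h hε)⟩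

/-- The Pauli `Z`. -/
def basicZ : Matrix Bool Bool ℂ := diagonal fun b => if b = true then (-1 : ℂ) else 1

theorem basicZ_mem : basicZ ∈ Matrix.unitaryGroup Bool ℂ := by
  rw [Matrix.mem_unitaryGroup_iff]
  ext b c
  cases b <;> cases c <;> simp [basicZ, Matrix.star_eq_conjTranspose, Matrix.mul_apply]

omit [DecidableEq ι] in
theorem basic_tens_diag (d : ι → Bool → ℂ) :
    tens (fun q => diagonal (d q)) = diagonal fun z : Z ι => ∏ q, d q (z q) := by
  ext z y
  simp only [tens, Matrix.of_apply, Matrix.diagonal_apply]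
  by_cases h : z = y
  · subst h
    simp
  · rw [if_neg h]
    obtain ⟨q, hq⟩ := Function.ne_iff.1 h
    exact Finset.prod_eq_zero (Finset.mem_univ q) (if_neg hq)

/-- The Pauli `Z` on one qubit. -/
theorem loc_sign (q : ι) :
    Loc 1 1 (diagonal fun z : Z ι => if z q = true then (-1 : ℂ) else 1) := by
  have key : (diagonal fun z : Z ι => if z q = true then (-1 : ℂ) else 1) =
      tens (fun k => if k = q then basicZ else 1) := by
    have : (fun k : ι => if k = q then basicZ else 1) = fun k => diagonal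
        ((fun k b => if k = q then (if b = true then (-1 : ℂ) else 1) else 1) k) := by
      funext k
      by_cases hk : k = q
      · simp [hk, basicZ]
      · simp [hk]
    rw [this, basic_tens_diag]
    congr 1
    funext z
    rw [Finset.prod_ite_eq']
    simp
  rw [key]
  refine Loc.tens _ {q} (by simp) (fun k => ?_) fun k hk => ?_
  · split_ifs
    · exact basicZ_mem
    · exact one_mem _
  · rw [Finset.mem_singleton] at hk
    exact if_neg hk

theorem basic_loc_half (q : ι) (b : Bool) :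
    Loc 1 1 (diagonal fun z : Z ι => if z q = b then (1 : ℂ) else 0) := by
  have h := Loc.add (Loc.smul (1 / 2) (loc_one (ι := ι) 1))
    (Loc.smul (if b = true then -(1 / 2) else 1 / 2) (loc_sign q))
  have e : ((1 / 2 : ℂ) • (1 : Op ι) + (if b = true then -(1 / 2) else 1 / 2 : ℂ) •
      (diagonal fun z : Z ι => if z q = true then (-1 : ℂ) else 1)) =
      diagonal fun z : Z ι => if z q = b then (1 : ℂ) else 0 := by
    rw [← Matrix.diagonal_one, ← Matrix.diagonal_smul, ← Matrix.diagonal_smul,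
      Matrix.diagonal_add]
    congr 1
    funext z
    simp only [Pi.smul_apply, smul_eq_mul]
    cases b <;> cases z q <;> norm_num
  rw [e] at h
  refine Loc.mono (le_of_eq ?_) h
  cases b <;> norm_num

theorem loc_cnt (S : Finset ι) : Loc 1 (Fintype.card ι) (dg S fun t => t) := by
  have h := Loc.sum (s := S) (m := 1) (r := fun _ => 1)
    (A := fun q => diagonal fun z : Z ι => if z q = true then (1 : ℂ) else 0)
    fun q _ => basic_loc_half q true
  have e : (∑ q ∈ S, (diagonal fun z : Z ι => if z q = true then (1 : ℂ) else 0)) =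
      dg S fun t => t := by
    ext z y
    rw [Matrix.sum_apply]
    simp only [dg, Matrix.diagonal_apply]
    by_cases hzy : z = y
    · simp [hzy, cnt]
    · simp [hzy]
  rw [e] at h
  refine Loc.mono ?_ h
  simp only [Finset.sum_const, nsmul_eq_mul, mul_one]
  exact_mod_cast Finset.card_le_univ S

theorem loc_proj (S : Finset ι) : Loc S.card 1 (proj S) := by
  induction S using Finset.induction_on with
  | empty =>
    have : proj (∅ : Finset ι) = 1 := by
      simp [proj, cnt]
    rw [this]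
    exact loc_one _
  | insert q S hq ih =>
    have h := (basic_loc_half q false).mul ih
    have e : (diagonal fun z : Z ι => if z q = false then (1 : ℂ) else 0) * proj S =
        proj (insert q S) := by
      unfold proj
      rw [Matrix.diagonal_mul_diagonal]
      congr 1
      funext z
      simp only [cnt_eq_zero, Finset.forall_mem_insert]
      by_cases h1 : z q = false <;> by_cases h2 : ∀ k ∈ S, z k = false <;> simp [h1, h2]
    rw [e, one_mul, add_comm] at h
    rwa [Finset.card_insert_of_notMem hq]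

end Vale.Agent.P368
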