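import Vale.Agent.P368.Back

/-!
# The dichotomy at level `l` from the dichotomy at lower levels  (see notes/P368.md)
-/

namespace Vale.Agent.P368

open Matrix

section Vec

variable {ι : Type} [Fintype ι] [DecidableEq ι]

theorem norm_dg_mulVec (S : Finset ι) (g : ℝ → ℝ) (v : Z ι → ℂ) (z : Z ι) :
    ‖(dg S g *ᵥ v) z‖ = |g (cnt S z)| * ‖v z‖ := by
  simp [dg, Matrix.mulVec_diagonal]

theorem abs_cnt_le (S : Finset ι) (z : Z ι) : |(cnt S z : ℝ)| ≤ Fintype.card ι := by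
  rw [abs_of_nonneg (Nat.cast_nonneg _)]
  exact_mod_cast cnt_le S z

theorem dg_one_mulVec (S : Finset ι) (v : Z ι → ℂ) : dg S (fun _ => 1) *ᵥ v = v := by
  funext z
  simp [dg]

theorem step_vec (S : Finset ι) (ψ : Z ι → ℂ) {p P : ℝ → ℝ} {s s' : ℕ} {w t t' R : ℝ}
    (hp : P1 (Fintype.card ι) s p) (hP : P1 (Fintype.card ι) s' P)
    (h01 : ∀ x, 0 ≤ x → x ≤ R → 0 ≤ P x ∧ P x ≤ 1)
    (hlo : ∀ x, 0 ≤ x → x ≤ t → 1 - P x ≤ Real.exp (-w))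
    (hhi : ∀ x, 0 ≤ x → t' < x → x ≤ R → P x ≤ Real.exp (-w))
    (hv : nv (dg S p *ᵥ ψ) ≤ 2) (htail : hi S R ψ ≤ Real.exp (-((s : ℝ) + s' + w))) :
    nv (dg S (fun x => P x * p x) *ᵥ ψ - dg S p *ᵥ ψ) ≤
        4 * Real.exp (-w) + hi S t (dg S p *ᵥ ψ) ∧
      hi S t' (dg S (fun x => P x * p x) *ᵥ ψ) ≤ 3 * Real.exp (-w) ∧
      nv (dg S (fun x => P x * p x) *ᵥ ψ) ≤ nv (dg S p *ᵥ ψ) + Real.exp (-w) := by
  have he : 0 < Real.exp (-w) := Real.exp_pos _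
  have hs : 0 < Real.exp (s : ℝ) := Real.exp_pos _
  have hs' : 1 ≤ Real.exp (s' : ℝ) := Real.one_le_exp (Nat.cast_nonneg _)
  set c : ℝ := Real.exp s * Real.exp s' with hc
  have hc0 : 0 < c := by positivity
  have ht3 : c * hi S R ψ ≤ Real.exp (-w) := by
    refine (mul_le_mul_of_nonneg_left htail hc0.le).trans (le_of_eq ?_)
    rw [hc, ← Real.exp_add, ← Real.exp_add]
    congr 1
    ring
  have bp : ∀ z, |p (cnt S z)| ≤ Real.exp s := fun z => hp.bound (abs_cnt_le S z)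
  have bP : ∀ z, |P (cnt S z)| ≤ Real.exp s' := fun z => hP.bound (abs_cnt_le S z)
  have bPp : ∀ z, |P (cnt S z) * p (cnt S z)| ≤ c := fun z => by
    rw [abs_mul, hc, mul_comm (Real.exp s)]
    exact mul_le_mul (bP z) (bp z) (abs_nonneg _) (by linarith)
  refine ⟨?_, ?_, ?_⟩
  · have key := nv_le_three (v := dg S (fun x => P x * p x) *ᵥ ψ - dg S p *ᵥ ψ)
      (w₁ := dg S p *ᵥ ψ) (w₂ := fun z => if t < (cnt S z : ℝ) then (dg S p *ᵥ ψ) z else 0)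
      (w₃ := fun z => if R < (cnt S z : ℝ) then ψ z else 0) (a := Real.exp (-w)) (b := 1)
      (c := 2 * c) he.le zero_le_one (by positivity) (by
        intro z
        have e : ‖(dg S (fun x => P x * p x) *ᵥ ψ - dg S p *ᵥ ψ) z‖ =
            |P (cnt S z) - 1| * (|p (cnt S z)| * ‖ψ z‖) := by
          have : (dg S (fun x => P x * p x) *ᵥ ψ - dg S p *ᵥ ψ) z =
              (((P (cnt S z) - 1) * p (cnt S z) : ℝ) : ℂ) * ψ z := by
            simp only [dg, Pi.sub_apply, Matrix.mulVec_diagonal]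
            push_cast
            ring
          rw [this, norm_mul, Complex.norm_real, Real.norm_eq_abs, abs_mul, mul_assoc]
        have h0 : (0 : ℝ) ≤ cnt S z := Nat.cast_nonneg _
        have hn : 0 ≤ |p (cnt S z)| * ‖ψ z‖ := by positivity
        rw [e, norm_dg_mulVec]
        by_cases h1 : R < (cnt S z : ℝ)
        · have h2 : |P (cnt S z) - 1| ≤ 2 * Real.exp s' := by
            have := abs_sub (P (cnt S z)) 1
            have := bP z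
            simp only [abs_one] at *
            linarith
          have h3 : |P (cnt S z) - 1| * (|p (cnt S z)| * ‖ψ z‖) ≤ 2 * c * ‖ψ z‖ := by
            rw [← mul_assoc]
            refine mul_le_mul_of_nonneg_right ?_ (norm_nonneg _)
            calc _ ≤ 2 * Real.exp s' * Real.exp s :=
                  mul_le_mul h2 (bp z) (abs_nonneg _) (by linarith)
              _ = 2 * c := by rw [hc]; ring
          simp only [if_pos h1]
          have : 0 ≤ Real.exp (-w) * (|p (cnt S z)| * ‖ψ z‖) := by positivity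
          have : 0 ≤ ‖if t < (cnt S z : ℝ) then (dg S p *ᵥ ψ) z else 0‖ := norm_nonneg _
          linarith
        · obtain ⟨a0, a1⟩ := h01 _ h0 (not_lt.1 h1)
          simp only [if_neg h1, norm_zero, mul_zero, add_zero, one_mul]
          by_cases h2 : t < (cnt S z : ℝ)
          · simp only [if_pos h2, norm_dg_mulVec]
            have h3 : |P (cnt S z) - 1| ≤ 1 := abs_le.2 ⟨by linarith, by linarith⟩
            have := mul_le_mul_of_nonneg_right h3 hn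
            have : 0 ≤ Real.exp (-w) * (|p (cnt S z)| * ‖ψ z‖) := by positivity
            linarith
          · simp only [if_neg h2, norm_zero, add_zero]
            have h3 : |P (cnt S z) - 1| ≤ Real.exp (-w) :=
              abs_le.2 ⟨by linarith [hlo _ h0 (not_lt.1 h2)], by linarith⟩
            exact mul_le_mul_of_nonneg_right h3 hn)
    have e2 : nv (fun z => if t < (cnt S z : ℝ) then (dg S p *ᵥ ψ) z else 0) =
        hi S t (dg S p *ᵥ ψ) := rfl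
    have e3 : nv (fun z => if R < (cnt S z : ℝ) then ψ z else 0) = hi S R ψ := rfl
    rw [e2, e3] at key
    nlinarith
  · have key := nv_le_three
      (v := fun z => if t' < (cnt S z : ℝ) then (dg S (fun x => P x * p x) *ᵥ ψ) z else 0)
      (w₁ := dg S p *ᵥ ψ) (w₂ := 0)
      (w₃ := fun z => if R < (cnt S z : ℝ) then ψ z else 0) (a := Real.exp (-w)) (b := 0)
      (c := c) he.le le_rfl hc0.le (by
        intro z
        have h0 : (0 : ℝ) ≤ cnt S z := Nat.cast_nonneg _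
        have hn : 0 ≤ |p (cnt S z)| * ‖ψ z‖ := by positivity
        have h4 : 0 ≤ Real.exp (-w) * (|p (cnt S z)| * ‖ψ z‖) := by positivity
        rw [norm_dg_mulVec, zero_mul, add_zero]
        by_cases h2 : t' < (cnt S z : ℝ)
        · simp only [if_pos h2, norm_dg_mulVec]
          by_cases h1 : R < (cnt S z : ℝ)
          · simp only [if_pos h1]
            have := mul_le_mul_of_nonneg_right (bPp z) (norm_nonneg (ψ z))
            linarith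
          · simp only [if_neg h1, norm_zero, mul_zero, add_zero]
            obtain ⟨a0, a1⟩ := h01 _ h0 (not_lt.1 h1)
            rw [abs_mul, mul_assoc, abs_of_nonneg a0]
            exact mul_le_mul_of_nonneg_right (hhi _ h0 h2 (not_lt.1 h1)) hn
        · simp only [if_neg h2, norm_zero]
          positivity)
    have e3 : nv (fun z => if R < (cnt S z : ℝ) then ψ z else 0) = hi S R ψ := rfl
    rw [e3] at key
    have : hi S t' (dg S (fun x => P x * p x) *ᵥ ψ) ≤ _ := key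
    nlinarith
  · have key := nv_le_three (v := dg S (fun x => P x * p x) *ᵥ ψ)
      (w₁ := dg S p *ᵥ ψ) (w₂ := 0)
      (w₃ := fun z => if R < (cnt S z : ℝ) then ψ z else 0) (a := 1) (b := 0)
      (c := c) zero_le_one le_rfl hc0.le (by
        intro z
        have h0 : (0 : ℝ) ≤ cnt S z := Nat.cast_nonneg _
        have hn : 0 ≤ |p (cnt S z)| * ‖ψ z‖ := by positivity
        rw [norm_dg_mulVec, norm_dg_mulVec, zero_mul, add_zero, one_mul]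
        by_cases h1 : R < (cnt S z : ℝ)
        · simp only [if_pos h1]
          have := mul_le_mul_of_nonneg_right (bPp z) (norm_nonneg (ψ z))
          linarith
        · simp only [if_neg h1, norm_zero, mul_zero, add_zero]
          obtain ⟨a0, a1⟩ := h01 _ h0 (not_lt.1 h1)
          rw [abs_mul, mul_assoc, abs_of_nonneg a0]
          nlinarith)
    have e3 : nv (fun z => if R < (cnt S z : ℝ) then ψ z else 0) = hi S R ψ := rfl
    rw [e3] at key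
    linarith

theorem overlap (S : Finset ι) (ψ : Z ι → ℂ) {P : ℝ → ℝ} {s : ℕ} {X R : ℝ}
    (hP : P1 (Fintype.card ι) s P) (hXR : X ≤ R) (h01 : ∀ x, 0 ≤ x → x ≤ R → 0 ≤ P x)
    (hlo : ∀ x, 0 ≤ x → x ≤ X → 1 / 2 ≤ P x) :
    lo S X ψ ^ 2 / 2 - Real.exp s * hi S R ψ ^ 2 ≤ ‖star ψ ⬝ᵥ (dg S P *ᵥ ψ)‖ := by
  have e : star ψ ⬝ᵥ (dg S P *ᵥ ψ) = ((∑ z, P (cnt S z) * ‖ψ z‖ ^ 2 : ℝ) : ℂ) := by
    simp only [dotProduct, dg, Matrix.mulVec_diagonal, Pi.star_apply]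
    push_cast
    refine Finset.sum_congr rfl fun z _ => ?_
    rw [← Complex.conj_mul' (ψ z)]
    simp only [RCLike.star_def]
    ring
  rw [e, Complex.norm_real, Real.norm_eq_abs]
  refine le_trans ?_ (le_abs_self _)
  unfold lo hi
  rw [nv_sq, nv_sq, Finset.sum_div, Finset.mul_sum, ← Finset.sum_sub_distrib]
  refine Finset.sum_le_sum fun z _ => ?_
  have h0 : (0 : ℝ) ≤ cnt S z := Nat.cast_nonneg _
  have hn : 0 ≤ ‖ψ z‖ ^ 2 := by positivity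
  by_cases h1 : R < (cnt S z : ℝ)
  · have h2 : ¬ (cnt S z : ℝ) ≤ X := by linarith
    have h3 := (abs_le.1 (hP.bound (abs_cnt_le S z))).1
    simp only [if_pos h1, if_neg h2, norm_zero]
    nlinarith
  · simp only [if_neg h1, norm_zero]
    by_cases h2 : (cnt S z : ℝ) ≤ X
    · simp only [if_pos h2]
      have := hlo _ h0 h2
      nlinarith
    · simp only [if_neg h2, norm_zero]
      have := h01 _ h0 (not_lt.1 h1)
      nlinarith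

/-- The step polynomial of stage `j`. -/
theorem exists_stage_pol {Γ : ℕ} (hΓ : Big ι Γ) (l j : ℕ) {g F M : ℕ} (hg : 1 ≤ g) (hF : 1 ≤ F)
    (hM : 1 ≤ M) : ∃ P : ℝ → ℝ, P1 (Fintype.card ι) (Γ ^ (l + 4) * g * F) P ∧
      (∀ x : ℝ, 0 ≤ x → x ≤ ((g ^ 2 * Γ ^ (2 * l + 2 * j + 3) * M : ℕ) : ℝ) → 0 ≤ P x ∧ P x ≤ 1) ∧
      (∀ x : ℝ, 0 ≤ x → x ≤ ((Γ ^ (2 * j) * M : ℕ) : ℝ) → 1 - P x ≤ Real.exp (-((Γ * F : ℕ) : ℝ))) ∧
      (∀ x : ℝ, 0 ≤ x → ((Γ ^ (2 * j + 2) * M : ℕ) : ℝ) < x →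
        x ≤ ((g ^ 2 * Γ ^ (2 * l + 2 * j + 3) * M : ℕ) : ℝ) → P x ≤ Real.exp (-((Γ * F : ℕ) : ℝ))) := by
  have h64 := hΓ.h64
  have hΓ1 : 1 ≤ Γ := by omega
  have hR : 1 ≤ g ^ 2 * Γ ^ (2 * l + 2 * j + 3) * M := Nat.succ_le_of_lt (by positivity)
  obtain ⟨P, h1, h2⟩ := exists_step_pol (N := Fintype.card ι)
    (R := ((g ^ 2 * Γ ^ (2 * l + 2 * j + 3) * M : ℕ) : ℝ)) (Γ := Γ) (k := g * Γ ^ (l + 1))
    (w := Γ * F) (Nat.cast_nonneg _) hΓ.card h64 (by exact_mod_cast hR)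
    (Nat.succ_le_of_lt (by positivity)) (Nat.succ_le_of_lt (by positivity))
  have e : g * Γ ^ (l + 1) * (Γ * F) * Γ ^ 2 = Γ ^ (l + 4) * g * F := by ring
  rw [e] at h1
  have hΓr : (64 : ℝ) ≤ Γ := by exact_mod_cast h64
  have a1 : 64 * (g * Γ ^ (l + 1)) ^ 2 * (Γ ^ (2 * j) * M) ≤ g ^ 2 * Γ ^ (2 * l + 2 * j + 3) * M := by
    calc 64 * (g * Γ ^ (l + 1)) ^ 2 * (Γ ^ (2 * j) * M)
        ≤ Γ * (g * Γ ^ (l + 1)) ^ 2 * (Γ ^ (2 * j) * M) := by gcongr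
      _ = _ := by ring
  have a2 : 16 * (g ^ 2 * Γ ^ (2 * l + 2 * j + 3) * M) ≤
      (g * Γ ^ (l + 1)) ^ 2 * (Γ ^ (2 * j + 2) * M) := by
    calc 16 * (g ^ 2 * Γ ^ (2 * l + 2 * j + 3) * M)
        ≤ Γ * (g ^ 2 * Γ ^ (2 * l + 2 * j + 3) * M) := by gcongr; omega
      _ = _ := by ring
  have a3 : Γ ^ (2 * j) * M ≤ g ^ 2 * Γ ^ (2 * l + 2 * j + 3) * M := by
    refine le_trans ?_ a1
    refine Nat.le_mul_of_pos_left _ (by positivity)
  refine ⟨P, h1, fun x h0 hx => ⟨(h2 x h0 hx).1, (h2 x h0 hx).2.1⟩, fun x h0 hx => ?_,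
    fun x h0 hx hx' => ?_⟩
  · refine (h2 x h0 (hx.trans (by exact_mod_cast a3))).2.2.1 ?_
    calc 64 * ((g * Γ ^ (l + 1) : ℕ) : ℝ) ^ 2 * x
        ≤ 64 * ((g * Γ ^ (l + 1) : ℕ) : ℝ) ^ 2 * ((Γ ^ (2 * j) * M : ℕ) : ℝ) := by gcongr
      _ ≤ _ := by exact_mod_cast a1
  · refine (h2 x h0 hx').2.2.2 ?_
    calc 16 * ((g ^ 2 * Γ ^ (2 * l + 2 * j + 3) * M : ℕ) : ℝ)
        ≤ ((g * Γ ^ (l + 1) : ℕ) : ℝ) ^ 2 * ((Γ ^ (2 * j + 2) * M : ℕ) : ℝ) := by exact_mod_cast a2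
      _ ≤ _ := by gcongr

end Vec

/-- The exponents of the sizes of the forward operators. -/
def expo (l h : ℕ) : ℕ → ℕ
  | 0 => 1
  | j + 1 => expo l h j + 13 * l + 17 + h * (expo l h j + 14 * l + 23)

theorem expo_pos (l h j : ℕ) : 1 ≤ expo l h j := by
  induction j with
  | zero => exact le_rfl
  | succ j ih => simp only [expo]; omega

theorem exp_nat_anti {a b : ℕ} (h : a ≤ b) : Real.exp (-(b : ℝ)) ≤ Real.exp (-(a : ℝ)) :=
  Real.exp_le_exp.2 (neg_le_neg (by exact_mod_cast h))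

theorem exp_gain {Γ F : ℕ} (h64 : 64 ≤ Γ) (hF : 1 ≤ F) :
    Real.exp F * (7 * Real.exp (-((Γ * F : ℕ) : ℝ))) ≤ Real.exp (-(F : ℝ)) := by
  have h1 : (64 : ℝ) ≤ Γ := by exact_mod_cast h64
  have h2 : (1 : ℝ) ≤ F := by exact_mod_cast hF
  have h3 : (7 : ℝ) ≤ Real.exp 6 := by linarith [Real.add_one_le_exp (6 : ℝ)]
  calc Real.exp F * (7 * Real.exp (-((Γ * F : ℕ) : ℝ)))
      ≤ Real.exp F * (Real.exp 6 * Real.exp (-((Γ * F : ℕ) : ℝ))) := by gcongr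
    _ = Real.exp (F + 6 - Γ * F) := by
      rw [← Real.exp_add, ← Real.exp_add]; congr 1; push_cast; ring
    _ ≤ _ := Real.exp_le_exp.2 (by nlinarith)

/-- The numerical relations between the parameters. -/
structure Par (Γ l X : ℕ) (F g k s : ℕ → ℕ) : Prop where
  hF1 : ∀ j, 1 ≤ F j
  hg1 : ∀ j, 1 ≤ g j
  hk1 : ∀ j, 1 ≤ k j
  hFs : ∀ j, F (j + 1) = k j * F j * Γ ^ 5
  hFm : ∀ j, F j ≤ F (j + 1)
  hFX : ∀ j, Γ * X ≤ F j
  hs1 : ∀ j, k j * F j * Γ ^ 5 + Γ ≤ s j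
  hs2 : ∀ j, Γ ^ (12 * l + 2) * s j ≤ k j ^ 2 * F j
  hs3 : ∀ j, Γ ^ (l + 4) * g (j + 1) * F (j + 2) + s j ≤ s (j + 1)
  hs4 : Γ ^ (l + 4) * g 0 * F 1 + 0 ≤ s 0
  hw : ∀ j, Γ * F (j + 1) ≤ s j

theorem exists_par (l h : ℕ) {Γ X : ℕ} (h64 : 64 ≤ Γ) (hX : 1 ≤ X) :
    ∃ F g k s : ℕ → ℕ, Par Γ l X F g k s ∧ F (l + 1) = Γ ^ expo l h (l + 1) * X ∧
      ∀ j, ∃ n, 1 ≤ n ∧ g j = Γ ^ (h * n) ∧ Γ ^ ((2 * h + 1) * n) * X = Γ * s j := by
  have hΓ0 : 0 < Γ := by omega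
  have hΓ1 : 1 ≤ Γ := hΓ0
  let F : ℕ → ℕ := fun j => Γ ^ expo l h j * X
  let g : ℕ → ℕ := fun j => Γ ^ (h * (expo l h j + 14 * l + 23))
  let k : ℕ → ℕ := fun j => Γ ^ (13 * l + 12) * g j
  let s : ℕ → ℕ := fun j => Γ ^ (l + 5) * g j * F (j + 1)
  have hF1 : ∀ j, 1 ≤ F j := fun j => Nat.succ_le_of_lt (by positivity)
  have hg1 : ∀ j, 1 ≤ g j := fun j => Nat.succ_le_of_lt (by positivity)
  have hk1 : ∀ j, 1 ≤ k j := fun j => Nat.succ_le_of_lt (by positivity)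
  have hFs : ∀ j, F (j + 1) = k j * F j * Γ ^ 5 := fun j => by
    simp only [F, k, g, expo]
    ring
  have hFΓ : ∀ j, Γ * F j ≤ F (j + 1) := fun j => by
    rw [hFs]
    calc Γ * F j = 1 * F j * Γ ^ 1 := by ring
      _ ≤ k j * F j * Γ ^ 5 := by gcongr <;> first | exact hk1 j | omega
  have hFX : ∀ j, Γ * X ≤ F j := fun j => by
    calc Γ * X = Γ ^ 1 * X := by ring
      _ ≤ Γ ^ expo l h j * X := by gcongr; exact expo_pos l h j
  have hgm : ∀ j, g j ≤ g (j + 1) := fun j => by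
    simp only [g]
    gcongr
    simp only [expo]
    omega
  refine ⟨F, g, k, s, ⟨hF1, hg1, hk1, hFs,
    fun j => le_trans (Nat.le_mul_of_pos_left _ hΓ0) (hFΓ j), hFX, fun j => ?_, fun j => ?_,
    fun j => ?_, ?_, fun j => ?_⟩, rfl, fun j => ⟨expo l h j + 14 * l + 23, by omega, rfl, ?_⟩⟩
  · rw [← hFs]
    have h1 : Γ ≤ F (j + 1) := le_trans (Nat.le_mul_of_pos_right _ hX) (hFX _)
    calc F (j + 1) + Γ ≤ 2 * 1 * F (j + 1) := by omega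
      _ ≤ Γ ^ (l + 5) * g j * F (j + 1) := by
        gcongr
        · calc 2 ≤ Γ ^ 1 := by rw [pow_one]; omega
            _ ≤ Γ ^ (l + 5) := by gcongr; omega
        · exact hg1 j
  · simp only [s]
    rw [hFs]
    simp only [k]
    exact le_of_eq (by ring)
  · have h1 : s j ≤ Γ ^ (l + 4) * g (j + 1) * F (j + 2) := by
      calc s j = Γ ^ (l + 4) * g j * (Γ * F (j + 1)) := by simp only [s]; ring
        _ ≤ Γ ^ (l + 4) * g (j + 1) * F (j + 2) := by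
          gcongr
          · exact hgm j
          · exact hFΓ (j + 1)
    calc _ ≤ 2 * (Γ ^ (l + 4) * g (j + 1) * F (j + 2)) := by omega
      _ ≤ Γ * (Γ ^ (l + 4) * g (j + 1) * F (j + 2)) := by gcongr; omega
      _ = s (j + 1) := by simp only [s]; ring
  · simp only [s, add_zero, zero_add]
    gcongr
    omega
  · calc Γ * F (j + 1) = Γ ^ 1 * 1 * F (j + 1) := by ring
      _ ≤ Γ ^ (l + 5) * g j * F (j + 1) := by gcongr <;> first | exact hg1 j | omega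
  · simp only [s, F, g, expo]
    ring

theorem num_small {Γ l X : ℕ} (hl : l ≤ Γ) (hX : 1 ≤ X) :
    ((l : ℝ) + 1) * Real.exp (-((Γ * X : ℕ) : ℝ)) ≤ 1 := by
  have h1 : Real.exp (-((Γ * X : ℕ) : ℝ)) ≤ Real.exp (-(l : ℝ)) :=
    exp_nat_anti (hl.trans (Nat.le_mul_of_pos_right Γ hX))
  have h2 := Real.add_one_le_exp (l : ℝ)
  calc _ ≤ Real.exp l * Real.exp (-(l : ℝ)) := by gcongr
    _ = 1 := by rw [← Real.exp_add]; simp

theorem num_half {a : ℕ} (ha : 1 ≤ a) : Real.exp (-(a : ℝ)) ≤ 1 / 2 := by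
  refine (exp_nat_anti ha).trans ?_
  rw [Real.exp_neg, Nat.cast_one, one_div]
  exact inv_anti₀ (by norm_num) (by linarith [Real.add_one_le_exp (1 : ℝ)])

theorem num_tail {Γ X s : ℕ} (hΓ : 1 ≤ Γ) (hX : 1 ≤ X) (hs : 64 * X ≤ s) :
    Real.exp s * Real.exp (-((Γ * s : ℕ) : ℝ)) ^ 2 ≤ Real.exp (-(2 * X : ℝ)) / 4 := by
  have h5 : (64 : ℝ) * X ≤ s := by exact_mod_cast hs
  have h6 : (1 : ℝ) ≤ Γ := by exact_mod_cast hΓ
  have hX1 : (1 : ℝ) ≤ X := by exact_mod_cast hX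
  have h7 : (4 : ℝ) ≤ Real.exp 3 := by linarith [Real.add_one_le_exp (3 : ℝ)]
  calc _ = Real.exp (s - 2 * (Γ * s)) := by
        rw [← Real.exp_nat_mul, ← Real.exp_add]; congr 1; push_cast; ring
    _ ≤ Real.exp (-(2 * X : ℝ) - 3) := Real.exp_le_exp.2 (by nlinarith)
    _ = Real.exp (-(2 * X : ℝ)) / Real.exp 3 := Real.exp_sub _ _
    _ ≤ _ := by gcongr

theorem num_final {Γ l X : ℕ} (hl : l + 64 ≤ Γ) (hX : 1 ≤ X) :
    (2 * l + 2) * Real.exp (-((Γ * X : ℕ) : ℝ)) <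
      Real.exp (-(2 * X : ℝ)) / 4 * Real.exp (-(X : ℝ)) := by
  have hX1 : (1 : ℝ) ≤ X := by exact_mod_cast hX
  have h1 : (l : ℝ) + 64 ≤ Γ := by exact_mod_cast hl
  have h2 : Real.exp (-((Γ * X : ℕ) : ℝ)) ≤
      Real.exp (-(3 * X : ℝ)) * Real.exp (-(l : ℝ)) * Real.exp (-61) := by
    rw [← Real.exp_add, ← Real.exp_add]
    refine Real.exp_le_exp.2 ?_
    push_cast
    nlinarith [Nat.cast_nonneg (α := ℝ) l]
  have h3 : ((l : ℝ) + 1) * Real.exp (-(l : ℝ)) ≤ 1 := by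
    have h2 := Real.add_one_le_exp (l : ℝ)
    calc _ ≤ Real.exp l * Real.exp (-(l : ℝ)) := by gcongr
      _ = 1 := by rw [← Real.exp_add]; simp
  have h4 : Real.exp (-61) ≤ 1 / 62 := by
    rw [Real.exp_neg, one_div]
    exact inv_anti₀ (by norm_num) (by linarith [Real.add_one_le_exp (61 : ℝ)])
  have h5 : Real.exp (-(2 * X : ℝ)) / 4 * Real.exp (-(X : ℝ)) = Real.exp (-(3 * X : ℝ)) / 4 := by
    rw [div_mul_eq_mul_div, ← Real.exp_add]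
    congr 2
    ring
  have h6 := Real.exp_pos (-(3 * X : ℝ))
  have h7 := Real.exp_pos (-(l : ℝ))
  rw [h5]
  calc (2 * l + 2) * Real.exp (-((Γ * X : ℕ) : ℝ))
      ≤ (2 * l + 2) * (Real.exp (-(3 * X : ℝ)) * Real.exp (-(l : ℝ)) * (1 / 62)) := by
        gcongr
        exact h2.trans (by gcongr)
    _ = Real.exp (-(3 * X : ℝ)) / 31 * (((l : ℝ) + 1) * Real.exp (-(l : ℝ))) := by ring
    _ ≤ Real.exp (-(3 * X : ℝ)) / 31 * 1 := by gcongr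
    _ < _ := by linarith

section Stages

variable {ι : Type} [Fintype ι] [DecidableEq ι] {c : NF ι} {Γ l X M : ℕ} {F g k s : ℕ → ℕ}
  {S : Finset ι}

theorem Par.tail (P : Par Γ l X F g k s) (h64 : 64 ≤ Γ) {y : ℝ} {j a b : ℕ} (hab : b + a ≤ s j)
    (h : y ≤ Real.exp (-((Γ * s j : ℕ) : ℝ))) :
    y ≤ Real.exp (-((a : ℝ) + b + ((Γ * F (j + 1) : ℕ) : ℝ))) := by
  refine h.trans (Real.exp_le_exp.2 (neg_le_neg ?_))
  have : a + b + Γ * F (j + 1) ≤ Γ * s j := by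
    calc _ ≤ 2 * s j := by have := P.hw j; omega
      _ ≤ Γ * s j := by gcongr; omega
  exact_mod_cast this

theorem Par.δF (P : Par Γ l X F g k s) (j : ℕ) :
    Real.exp (-(F j : ℝ)) ≤ Real.exp (-((Γ * X : ℕ) : ℝ)) := exp_nat_anti (P.hFX j)

theorem Par.δw (P : Par Γ l X F g k s) (h64 : 64 ≤ Γ) (j : ℕ) :
    Real.exp (-((Γ * F j : ℕ) : ℝ)) ≤ Real.exp (-((Γ * X : ℕ) : ℝ)) :=
  exp_nat_anti ((P.hFX j).trans (Nat.le_mul_of_pos_left _ (by omega)))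

/-- The invariant of stage `j`. -/
def Inv (c : NF ι) (Γ l X M : ℕ) (F s : ℕ → ℕ) (S : Finset ι) (c₀ : ℂ) (j : ℕ) : Prop :=
  ∃ (p : ℝ → ℝ) (Q : Op ι), P1 (Fintype.card ι) (s j) p ∧
    nv (dg S p *ᵥ c.ψ l) ≤ 1 + (j + 1) * Real.exp (-((Γ * X : ℕ) : ℝ)) ∧
    hi S ((Γ ^ (2 * j + 2) * M : ℕ) : ℝ) (dg S p *ᵥ c.ψ l) ≤
      3 * Real.exp (-((Γ * F (j + 1) : ℕ) : ℝ)) ∧
    L1 (F (j + 1)) Q ∧
    nv (c₀ • c.ψ j - Q *ᵥ c.pull j l (dg S p *ᵥ c.ψ l)) ≤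
      (2 * j + 1) * Real.exp (-((Γ * X : ℕ) : ℝ))

theorem stage_zero (P : Par Γ l X F g k s) (hΓ : Big ι Γ) (hl : l ≤ Γ)
    (hD : ∀ i < l, Dich (c.ψ i) Γ) (hX : 1 ≤ X) (hXM : X ≤ M)
    (hT : hi S ((g 0 ^ 2 * Γ ^ (2 * l + 2 * 0 + 3) * M : ℕ) : ℝ) (c.ψ l) ≤
      Real.exp (-((Γ * s 0 : ℕ) : ℝ)))
    (hc1 : Real.exp (-(X : ℝ)) < lo S X (c.ψ l)) :
    ∃ c₀ : ℂ, Real.exp (-(2 * X : ℝ)) / 4 ≤ ‖c₀‖ ∧ Inv c Γ l X M F s S c₀ 0 := by
  have h64 := hΓ.h64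
  have hΓ0 : 0 < Γ := by omega
  have hM1 : 1 ≤ M := hX.trans hXM
  obtain ⟨P₀, p1, p2, p3, p4⟩ := exists_stage_pol hΓ l 0 (P.hg1 0) (P.hF1 1) hM1
  have hψ1 : nv (c.ψ l) = 1 := c.nv_ψ l
  obtain ⟨-, q2, q3⟩ := step_vec S (c.ψ l) (p1_one _ 0) p1 p2 p3 p4
    (by rw [dg_one_mulVec, hψ1]; norm_num) (P.tail h64 P.hs4 hT)
  rw [dg_one_mulVec, hψ1] at q3
  have hp₀ : P1 (Fintype.card ι) (s 0) fun x => P₀ x * 1 := (p1.mul (p1_one _ 0)).mono P.hs4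
  have hXM' : (X : ℝ) ≤ ((Γ ^ (2 * 0) * M : ℕ) : ℝ) := by simpa using hXM
  have hMR : Γ ^ (2 * 0) * M ≤ g 0 ^ 2 * Γ ^ (2 * l + 2 * 0 + 3) * M := by
    have := P.hg1 0
    calc _ = 1 ^ 2 * Γ ^ (2 * 0) * M := by ring
      _ ≤ _ := by gcongr; omega
  refine ⟨star (c.ψ l) ⬝ᵥ (dg S (fun x => P₀ x * 1) *ᵥ c.ψ l), ?_, ?_⟩
  · have h1 := overlap S (c.ψ l) (X := X) hp₀
      (hXM'.trans (Nat.cast_le.2 hMR)) (fun x h0 hx => by simpa using (p2 x h0 hx).1)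
      (fun x h0 hx => by
        have h2 := (p3 x h0 (hx.trans hXM')).trans (num_half (Nat.mul_pos hΓ0 (P.hF1 1)))
        rw [mul_one]
        linarith)
    have h2 : Real.exp (-(2 * X : ℝ)) ≤ lo S X (c.ψ l) ^ 2 := by
      calc _ = Real.exp (-(X : ℝ)) ^ 2 := by rw [← Real.exp_nat_mul]; congr 1; push_cast; ring
        _ ≤ _ := pow_le_pow_left₀ (Real.exp_pos _).le hc1.le 2
    have h4 : 64 * X ≤ s 0 := by
      calc 64 * X ≤ Γ * X := by gcongr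
        _ ≤ F 1 := P.hFX 1
        _ ≤ Γ * F 1 := Nat.le_mul_of_pos_left _ hΓ0
        _ ≤ s 0 := P.hw 0
    have h5 : 0 ≤ hi S ((g 0 ^ 2 * Γ ^ (2 * l + 2 * 0 + 3) * M : ℕ) : ℝ) (c.ψ l) := nv_nonneg _
    have h3 := (mul_le_mul_of_nonneg_left (pow_le_pow_left₀ h5 hT 2)
      (Real.exp_pos (s 0 : ℝ)).le).trans (num_tail hΓ0 hX h4)
    linarith
  · have hδ := num_small hl hX
    have hδ0 := Real.exp_pos (-((Γ * X : ℕ) : ℝ))
    have hn : nv (dg S (fun x => P₀ x * 1) *ᵥ c.ψ l) ≤ 1 + Real.exp (-((Γ * X : ℕ) : ℝ)) := by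
      linarith [P.δw h64 1]
    have hδ1 : Real.exp (-((Γ * X : ℕ) : ℝ)) ≤ 1 := by nlinarith [Nat.cast_nonneg (α := ℝ) l]
    obtain ⟨Q, hQ, hQ'⟩ := NF.fwd0 hΓ hl hD (P.hk1 0) (P.hF1 0) (P.hs1 0) (P.hs2 0)
      (hp₀.loc S) (by linarith)
    rw [← P.hFs] at hQ
    refine ⟨_, Q, hp₀, ?_, q2, hQ, ?_⟩
    · rw [Nat.cast_zero, zero_add, one_mul]
      exact hn
    · rw [Nat.cast_zero, mul_zero, zero_add, one_mul]
      exact hQ'.trans (P.δF 0)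

theorem stage_succ (P : Par Γ l X F g k s) (hΓ : Big ι Γ) (hl : l ≤ Γ)
    (hD : ∀ i < l, Dich (c.ψ i) Γ) (hX : 1 ≤ X) (hM1 : 1 ≤ M) {j : ℕ} (hj : j < l)
    (hT : hi S ((g (j + 1) ^ 2 * Γ ^ (2 * l + 2 * (j + 1) + 3) * M : ℕ) : ℝ) (c.ψ l) ≤
      Real.exp (-((Γ * s (j + 1) : ℕ) : ℝ))) {c₀ : ℂ} (h : Inv c Γ l X M F s S c₀ j) :
    Inv c Γ l X M F s S c₀ (j + 1) := by
  have h64 := hΓ.h64
  obtain ⟨p, Q, a1, a2, a3, a4, a5⟩ := h
  have hδ := num_small hl hX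
  set δ := Real.exp (-((Γ * X : ℕ) : ℝ)) with hδ'
  have hδ0 : 0 < δ := Real.exp_pos _
  have hjl : (j : ℝ) + 1 ≤ l := by exact_mod_cast hj
  have hj2 : ((j : ℝ) + 1 + 1) * δ ≤ 1 := le_trans (by gcongr) hδ
  obtain ⟨T, b1, b2, b3, b4⟩ := exists_stage_pol hΓ l (j + 1) (P.hg1 (j + 1)) (P.hF1 (j + 2)) hM1
  obtain ⟨d1, d2, d3⟩ := step_vec S (c.ψ l) a1 b1 b2 b3 b4 (by linarith)
    (P.tail h64 (P.hs3 j) hT)
  have hp' : P1 (Fintype.card ι) (s (j + 1)) fun x => T x * p x := (b1.mul a1).mono (P.hs3 j)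
  have hn : nv (dg S (fun x => T x * p x) *ᵥ c.ψ l) ≤ 1 + ((j : ℝ) + 1 + 1) * δ := by
    linarith [P.δw h64 (j + 2)]
  obtain ⟨Q', hQ, hQ'⟩ := NF.fwd hΓ hj hl hD (P.hk1 (j + 1))
    (P.hF1 (j + 1)) (P.hs1 (j + 1)) (P.hs2 (j + 1)) (hp'.loc S) (by linarith) a4
  rw [← P.hFs] at hQ
  refine ⟨_, Q', hp', by rw [Nat.cast_succ]; exact hn, d2, hQ, ?_⟩
  generalize dg S (fun x => T x * p x) *ᵥ c.ψ l = u' at *
  generalize dg S p *ᵥ c.ψ l = u at *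
  have e1 : nv (c₀ • c.ψ (j + 1) - c.U j *ᵥ (Q *ᵥ c.pull j l u)) ≤ (2 * j + 1) * δ := by
    rw [c.ψ_succ, ← Matrix.mulVec_smul, ← Matrix.mulVec_sub, nv_unitary (c.U_left j)]
    exact a5
  have e2 : nv (c.U j *ᵥ (Q *ᵥ c.pull j l u) - c.U j *ᵥ (Q *ᵥ c.pull j l u')) ≤ δ := by
    rw [← Matrix.mulVec_sub, nv_unitary (c.U_left j), ← Matrix.mulVec_sub, ← c.pull_sub]
    refine (a4.nv_le _).trans ?_
    rw [c.nv_pull, nv_sub_comm]
    refine le_trans ?_ ((exp_gain h64 (P.hF1 (j + 1))).trans (P.δF (j + 1)))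
    refine mul_le_mul_of_nonneg_left ?_ (Real.exp_pos _).le
    have h1 : Real.exp (-((Γ * F (j + 2) : ℕ) : ℝ)) ≤ Real.exp (-((Γ * F (j + 1) : ℕ) : ℝ)) :=
      exp_nat_anti (Nat.mul_le_mul_left _ (P.hFm (j + 1)))
    have h2 : 2 * (j + 1) = 2 * j + 2 := by ring
    rw [h2] at d1
    linarith
  have e3 := hQ'.trans (P.δF (j + 1))
  have t1 := nv_sub_tri (c₀ • c.ψ (j + 1)) (c.U j *ᵥ (Q *ᵥ c.pull j l u))
    (Q' *ᵥ c.pull (j + 1) l u')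
  have t2 := nv_sub_tri (c.U j *ᵥ (Q *ᵥ c.pull j l u)) (c.U j *ᵥ (Q *ᵥ c.pull j l u'))
    (Q' *ᵥ c.pull (j + 1) l u')
  rw [Nat.cast_succ]
  linarith

theorem stage_end (P : Par Γ l X F g k s) (h64 : 64 ≤ Γ) (hM : F (l + 1) ≤ M) {c₀ : ℂ}
    (h : Inv c Γ l X M F s S c₀ l) :
    ‖c₀‖ * hi S ((Γ ^ (2 * l + 3) * M : ℕ) : ℝ) (c.ψ l) ≤
      (2 * l + 2) * Real.exp (-((Γ * X : ℕ) : ℝ)) := by
  obtain ⟨p, Q, -, -, a3, a4, a5⟩ := h
  have hΓ0 : 0 < Γ := by omega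
  rw [c.pull_self] at a5
  generalize dg S p *ᵥ c.ψ l = u at *
  have f1 := hi_le_add S ((Γ ^ (2 * l + 3) * M : ℕ) : ℝ) (c₀ • c.ψ l) (Q *ᵥ u)
  rw [hi_smul] at f1
  have f2 : hi S ((Γ ^ (2 * l + 3) * M : ℕ) : ℝ) (Q *ᵥ u) ≤ Real.exp (-((Γ * X : ℕ) : ℝ)) := by
    have h1 : Γ ^ (2 * l + 2) * M + F (l + 1) ≤ Γ ^ (2 * l + 3) * M := by
      have h2 : F (l + 1) ≤ Γ ^ (2 * l + 2) * M :=
        hM.trans (Nat.le_mul_of_pos_left _ (by positivity))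
      calc _ ≤ 2 * (Γ ^ (2 * l + 2) * M) := by omega
        _ ≤ Γ * (Γ ^ (2 * l + 2) * M) := by gcongr; omega
        _ = _ := by ring
    refine (hi_anti S (a := ((Γ ^ (2 * l + 2) * M : ℕ) : ℝ) + (F (l + 1) : ℕ))
      (by exact_mod_cast h1) _).trans ((a4.hi_le S _ _).trans ?_)
    refine le_trans ?_ ((exp_gain h64 (P.hF1 (l + 1))).trans (P.δF (l + 1)))
    refine mul_le_mul_of_nonneg_left ?_ (Real.exp_pos _).le
    linarith [Real.exp_pos (-((Γ * F (l + 1) : ℕ) : ℝ))]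
  linarith

end Stages

theorem chain (l h : ℕ) : ∃ E : ℕ, ∀ (ι : Type) [Fintype ι] [DecidableEq ι] (c : NF ι) (Γ : ℕ),
    Big ι Γ → l + 64 ≤ Γ → (∀ i < l, Dich (c.ψ i) Γ) → ∀ (S : Finset ι) (X M : ℕ), 1 ≤ X →
    Γ ^ E * X ≤ M →
    (∀ n, 1 ≤ n → hi S ((Γ ^ (2 * h * n) * (Γ ^ (2 * l + 3) * M) : ℕ) : ℝ) (c.ψ l) ≤
      Real.exp (-((Γ ^ ((2 * h + 1) * n) * X : ℕ) : ℝ))) →
    lo S X (c.ψ l) ≤ Real.exp (-(X : ℝ)) ∨
      hi S ((Γ ^ (2 * l + 3) * M : ℕ) : ℝ) (c.ψ l) ≤ Real.exp (-(X : ℝ)) := by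
  refine ⟨expo l h (l + 1), ?_⟩
  intro ι _ _ c Γ hΓ hl hD S X M hX hM htail
  by_contra hcon
  rw [not_or, not_le, not_le] at hcon
  obtain ⟨hc1, hc2⟩ := hcon
  have h64 := hΓ.h64
  have hΓ0 : 0 < Γ := by omega
  have hXM : X ≤ M := le_trans (Nat.le_mul_of_pos_left _ (by positivity)) hM
  obtain ⟨F, g, k, s, P, hF, hn⟩ := exists_par l h h64 hX
  have hT : ∀ j, hi S ((g j ^ 2 * Γ ^ (2 * l + 2 * j + 3) * M : ℕ) : ℝ) (c.ψ l) ≤
      Real.exp (-((Γ * s j : ℕ) : ℝ)) := fun j => by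
    obtain ⟨n, n1, n2, n3⟩ := hn j
    have h1 := htail n n1
    rw [n3] at h1
    refine le_trans (hi_anti S (Nat.cast_le.2 ?_) _) h1
    calc _ = g j ^ 2 * Γ ^ (2 * l + 3) * M := by rw [n2]; ring
      _ ≤ _ := by gcongr; omega
  obtain ⟨c₀, hc₀, h0⟩ := stage_zero P hΓ (by omega) hD hX hXM (hT 0) hc1
  have main : ∀ j, j ≤ l → Inv c Γ l X M F s S c₀ j := by
    intro j
    induction j with
    | zero => exact fun _ => h0
    | succ j ih =>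
      exact fun hj => stage_succ P hΓ (by omega) hD hX (hX.trans hXM) hj (hT (j + 1))
        (ih (by omega))
  have f1 := stage_end P h64 (by rw [hF]; exact hM) (main l le_rfl)
  have f3 : Real.exp (-(2 * X : ℝ)) / 4 * Real.exp (-(X : ℝ)) ≤
      ‖c₀‖ * hi S ((Γ ^ (2 * l + 3) * M : ℕ) : ℝ) (c.ψ l) :=
    mul_le_mul hc₀ hc2.le (Real.exp_pos _).le (norm_nonneg _)
  linarith [num_final hl hX]

end Vale.Agent.P368
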