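import Mathlib

/-!
# Polynomials with controlled degree and coefficient mass  (pure real analysis)

* `fej`: `x = 1 - 2 t / R` has mass `1 + 2 N`; `T_i` (recurrence `T_{i+2} = 2 x T_{i+1} - T_i`) has degree
  `i` and mass `(3 + 4 N)^i ≤ exp (Γ i)`; `A = (∑_{i<k} T_i) / k`, `b = A²`.  For `t ∈ [0,R]` write
  `x = cos θ`, `θ = 2 β`, `sin² β = t / R`; `T_i = cos (i θ)`; `2 sin β ∑_{i<k} cos (2 i β)` telescopes
  (`sin ((2i+1) β) - sin ((2i-1) β)`), so `|sin β| k |A| ≤ 1`; `1 - cos (2 i β) = 2 sin² (i β) ≤ 2 i² sin² β`,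
  so `1 - A ≤ 2 k² t / R` and `1 - A² ≤ 2 (1 - A)`.
* `exists_zero_pol`: `q = (∏_{i=1}^{w} (1 - t / i)) * b^(w + w Γ)`, `b = fej` with `R = k² w` and `2 k`;
  for integers `1 ≤ t ≤ w` the product vanishes, for `w ≤ t ≤ R`, `b ≤ 1/4 ≤ exp (-1)` and the product is
  at most `(1 + N)^w ≤ exp (w Γ)` (`Pol.bound`).  Total size `≤ 9 k w Γ²`.
* `exists_step_pol`: `P = ∑_{w < i ≤ 2w} C(2w,i) b^i (1-b)^(2w-i)`; binomial theorem;
  `P ≤ 4^w b^w`, `1 - P ≤ 4^w (1-b)^w`; mass `≤ (1 + 2 c)^(2w)`, `c = exp (2 k Γ)`.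
-/

namespace Vale.Agent.P368

/-- `Pol N k r g`: `g` is a polynomial of degree `≤ k` whose mass (with `t` of mass `N`) is `≤ r`. -/
inductive Pol (N : ℝ) : ℕ → ℝ → (ℝ → ℝ) → Prop
  | const (c : ℝ) : Pol N 0 |c| fun _ => c
  | id : Pol N 1 N fun t => t
  | add {k : ℕ} {r r' : ℝ} {f g : ℝ → ℝ} :
      Pol N k r f → Pol N k r' g → Pol N k (r + r') fun t => f t + g t
  | mul {k k' : ℕ} {r r' : ℝ} {f g : ℝ → ℝ} :
      Pol N k r f → Pol N k' r' g → Pol N (k + k') (r * r') fun t => f t * g t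
  | mono {k k' : ℕ} {r r' : ℝ} {f : ℝ → ℝ} : k ≤ k' → r ≤ r' → Pol N k r f → Pol N k' r' f

/-- Size `s`: degree `s` and mass `exp s`. -/
abbrev P1 (N : ℝ) (s : ℕ) (g : ℝ → ℝ) : Prop := Pol N s (Real.exp s) g

theorem Pol.bound {N : ℝ} {k : ℕ} {r : ℝ} {g : ℝ → ℝ} (h : Pol N k r g) {t : ℝ} (ht : |t| ≤ N) :
    |g t| ≤ r := by
  induction h with
  | const c => exact le_rfl
  | id => exact ht
  | add _ _ h1 h2 => exact (abs_add_le _ _).trans (add_le_add h1 h2)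
  | mul _ _ h1 h2 =>
    rw [abs_mul]
    exact mul_le_mul h1 h2 (abs_nonneg _) ((abs_nonneg _).trans h1)
  | mono _ hr _ h1 => exact h1.trans hr

theorem P1.mono {N : ℝ} {s s' : ℕ} {g : ℝ → ℝ} (h : P1 N s g) (hs : s ≤ s') : P1 N s' g :=
  Pol.mono hs (Real.exp_le_exp.mpr (Nat.cast_le.mpr hs)) h

theorem P1.mul {N : ℝ} {s s' : ℕ} {f g : ℝ → ℝ} (hf : P1 N s f) (hg : P1 N s' g) :
    P1 N (s + s') fun t => f t * g t :=
  Pol.mono le_rfl (by rw [← Real.exp_add, Nat.cast_add]) (Pol.mul hf hg)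

theorem p1_one (N : ℝ) (s : ℕ) : P1 N s fun _ => 1 :=
  Pol.mono (Nat.zero_le s) (by rw [abs_one]; exact Real.one_le_exp (Nat.cast_nonneg s)) (Pol.const 1)

section

open Finset

variable {N r : ℝ} {k : ℕ} {f g : ℝ → ℝ}

theorem pol_congr (h : Pol N k r f) (e : ∀ t, g t = f t) : Pol N k r g := by
  rw [show g = f from funext e]
  exact h

theorem pol_smul (c : ℝ) (h : Pol N k r f) : Pol N k (|c| * r) fun t => c * f t :=
  Pol.mono (Nat.zero_add k).le le_rfl (Pol.mul (Pol.const c) h)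

theorem pol_one : Pol N k 1 fun _ => 1 := Pol.mono (Nat.zero_le k) abs_one.le (Pol.const 1)

theorem pol_aff (c : ℝ) (h : Pol N k r f) : Pol N k (1 + |c| * r) fun t => 1 + c * f t :=
  Pol.add pol_one (pol_smul c h)

theorem pol_sum {ι : Type} (s : Finset ι) {r : ι → ℝ} {f : ι → ℝ → ℝ}
    (h : ∀ i ∈ s, Pol N k (r i) (f i)) : Pol N k (∑ i ∈ s, r i) fun t => ∑ i ∈ s, f i t := by
  classical
  induction s using Finset.induction_on with
  | empty => exact Pol.mono (Nat.zero_le k) (by simp) (pol_congr (Pol.const 0) fun _ => sum_empty)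
  | insert a s ha ih =>
    rw [sum_insert ha]
    exact pol_congr (Pol.add (h a (mem_insert_self _ _)) (ih fun i hi => h i (mem_insert_of_mem hi)))
      fun _ => sum_insert ha

theorem pol_prod (n : ℕ) {f : ℕ → ℝ → ℝ} (h : ∀ i, Pol N k r (f i)) :
    Pol N (n * k) (r ^ n) fun t => ∏ i ∈ range n, f i t := by
  induction n with
  | zero => exact Pol.mono le_rfl (pow_zero r).ge (pol_congr pol_one fun _ => prod_range_zero _)
  | succ n ih =>
    exact Pol.mono (Nat.succ_mul n k).ge (pow_succ r n).ge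
      (pol_congr (Pol.mul ih (h n)) fun _ => prod_range_succ _ _)

theorem pol_pow (n : ℕ) (h : Pol N k r f) : Pol N (n * k) (r ^ n) fun t => f t ^ n :=
  pol_congr (pol_prod n (f := fun _ => f) fun _ => h) fun _ => by rw [prod_const, card_range]

/-- Chebyshev polynomials. -/
def pol_T (x : ℝ) : ℕ → ℝ
  | 0 => 1
  | 1 => x
  | i + 2 => 2 * (x * pol_T x (i + 1)) + -1 * pol_T x i

theorem pol_T_cos (θ : ℝ) : ∀ i : ℕ, pol_T (Real.cos θ) i = Real.cos (i * θ)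
  | 0 => by simp [pol_T]
  | 1 => by simp [pol_T]
  | i + 2 => by
    have e1 : ((i + 2 : ℕ) : ℝ) * θ = ((i + 1 : ℕ) : ℝ) * θ + θ := by
      push_cast
      ring
    have e2 : (i : ℝ) * θ = ((i + 1 : ℕ) : ℝ) * θ - θ := by
      push_cast
      ring
    rw [pol_T, pol_T_cos θ (i + 1), pol_T_cos θ i, e1, e2, Real.cos_add, Real.cos_sub]
    ring

theorem pol_T_pol {M : ℝ} (h : Pol N 1 r f) (h1 : 1 ≤ M) (hr : 2 * r + 1 ≤ M) (hr0 : 0 ≤ r) :
    ∀ i : ℕ, Pol N i (M ^ i) fun t => pol_T (f t) i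
  | 0 => Pol.mono le_rfl (pow_zero M).ge pol_one
  | 1 => Pol.mono le_rfl (by rw [pow_one]; linarith) h
  | i + 2 => by
    have h2 := Pol.add (pol_smul 2 (Pol.mono (show 1 + (i + 1) ≤ i + 2 by omega) le_rfl
      (Pol.mul h (pol_T_pol h h1 hr hr0 (i + 1))))) (pol_smul (-1)
      (Pol.mono (show i ≤ i + 2 by omega) le_rfl (pol_T_pol h h1 hr hr0 i)))
    refine Pol.mono le_rfl ?_ h2
    have h3 : M ^ i ≤ M ^ (i + 1) := pow_le_pow_right₀ h1 (Nat.le_succ i)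
    have h4 := mul_le_mul_of_nonneg_right hr (show 0 ≤ M ^ (i + 1) by positivity)
    rw [abs_neg, abs_one, abs_two, pow_succ' M (i + 1)]
    linarith

theorem pol_tele (β : ℝ) (k : ℕ) : 2 * Real.sin β * ∑ i ∈ range k, Real.cos (i * (2 * β)) =
    Real.sin (k * (2 * β) - β) + Real.sin β := by
  induction k with
  | zero => simp
  | succ k ih =>
    have e1 : ((k + 1 : ℕ) : ℝ) * (2 * β) - β = k * (2 * β) + β := by
      push_cast
      ring
    rw [sum_range_succ, mul_add, ih, e1, Real.sin_add, Real.sin_sub]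
    ring

theorem pol_sin (β : ℝ) (i : ℕ) : |Real.sin (i * β)| ≤ i * |Real.sin β| := by
  induction i with
  | zero => simp
  | succ i ih =>
    have e1 : ((i + 1 : ℕ) : ℝ) * β = i * β + β := by
      push_cast
      ring
    rw [e1, Real.sin_add]
    refine (abs_add_le _ _).trans ?_
    rw [abs_mul, abs_mul]
    have h1 := mul_le_mul_of_nonneg_left (Real.abs_cos_le_one β) (abs_nonneg (Real.sin (i * β)))
    have h2 := mul_le_mul_of_nonneg_right (Real.abs_cos_le_one (i * β)) (abs_nonneg (Real.sin β))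
    push_cast
    linarith

theorem pol_fej (β : ℝ) {k : ℕ} (hk : 1 ≤ k) {A : ℝ}
    (hA : A = (k : ℝ)⁻¹ * ∑ i ∈ range k, Real.cos (i * (2 * β))) :
    A * A ≤ 1 ∧ (k : ℝ) ^ 2 * Real.sin β ^ 2 * (A * A) ≤ 1 ∧
      1 - A * A ≤ 4 * (k : ℝ) ^ 2 * Real.sin β ^ 2 := by
  have hk0 : (0 : ℝ) < k := Nat.cast_pos.mpr hk
  have hkA : k * A = ∑ i ∈ range k, Real.cos (i * (2 * β)) := by
    rw [hA, ← mul_assoc, mul_inv_cancel₀ hk0.ne', one_mul]
  have h1 : |A| ≤ 1 := by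
    have h2 : |k * A| ≤ k * 1 := by
      rw [hkA]
      refine (abs_sum_le_sum_abs _ _).trans ((sum_le_sum fun i _ => Real.abs_cos_le_one _).trans ?_)
      simp
    rw [abs_mul, abs_of_pos hk0] at h2
    exact le_of_mul_le_mul_left h2 hk0
  have h2 : |Real.sin β * (k * A)| ≤ 1 := by
    have h3 := pol_tele β k
    rw [← hkA] at h3
    have h4 := Real.sin_le_one β
    have h5 := Real.neg_one_le_sin β
    have h6 := Real.sin_le_one (k * (2 * β) - β)
    have h7 := Real.neg_one_le_sin (k * (2 * β) - β)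
    exact abs_le.mpr ⟨by linarith, by linarith⟩
  have h3 : 1 - A ≤ 2 * (k : ℝ) ^ 2 * Real.sin β ^ 2 := by
    have h4 : k * (1 - A) ≤ k * (2 * (k : ℝ) ^ 2 * Real.sin β ^ 2) := by
      have h5 : ∑ i ∈ range k, (1 - Real.cos (i * (2 * β))) ≤
          ∑ i ∈ range k, 2 * (k : ℝ) ^ 2 * Real.sin β ^ 2 := by
        refine sum_le_sum fun i hi => ?_
        have h6 : (i : ℝ) ≤ k := Nat.cast_le.mpr (mem_range.mp hi).le
        have h7 : |Real.sin (i * β)| ≤ k * |Real.sin β| :=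
          (pol_sin β i).trans (mul_le_mul_of_nonneg_right h6 (abs_nonneg _))
        have h8 := pow_le_pow_left₀ (abs_nonneg _) h7 2
        rw [mul_pow, sq_abs, sq_abs] at h8
        have e1 : (i : ℝ) * (2 * β) = 2 * (i * β) := by ring
        rw [e1, Real.cos_two_mul, Real.cos_sq']
        linarith
      rw [sum_sub_distrib, sum_const, sum_const, card_range, nsmul_eq_mul, nsmul_eq_mul, ← hkA] at h5
      linarith
    exact le_of_mul_le_mul_left h4 hk0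
  obtain ⟨h4, h5⟩ := abs_le.mp h1
  have h6 := (sq_le_one_iff_abs_le_one _).mpr h2
  have h7 := (sq_le_one_iff_abs_le_one _).mpr h1
  refine ⟨by linarith, by linarith, ?_⟩
  have h8 : 0 ≤ (1 - A) ^ 2 := sq_nonneg _
  linarith

theorem pol_quarter : (1 / 4 : ℝ) ≤ Real.exp (-1) := by
  have h := Real.exp_neg_one_gt_d9
  linarith

end

theorem fej {N R : ℝ} {Γ k : ℕ} (hN : 0 ≤ N) (hΓ : 4 * N + 4 ≤ Real.exp Γ) (hR : 1 ≤ R)
    (hk : 1 ≤ k) : ∃ b : ℝ → ℝ, Pol N (2 * k) (Real.exp (2 * k * Γ)) b ∧ b 0 = 1 ∧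
      ∀ t, 0 ≤ t → t ≤ R → 0 ≤ b t ∧ b t ≤ 1 ∧ (k : ℝ) ^ 2 * t * b t ≤ R ∧
        R * (1 - b t) ≤ 4 * (k : ℝ) ^ 2 * t := by
  have hk0 : (0 : ℝ) < k := Nat.cast_pos.mpr hk
  have hR0 : 0 < R := by linarith
  have hM : 1 ≤ Real.exp Γ := by linarith
  have hx : Pol N 1 (1 + 2 * N) fun t => 1 + -2 / R * t := by
    refine Pol.mono le_rfl ?_ (pol_aff (-2 / R) Pol.id)
    have h1 : |-2 / R| ≤ 2 := by
      rw [abs_div, abs_neg, abs_two, abs_of_pos hR0]
      exact div_le_self zero_le_two hR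
    linarith [mul_le_mul_of_nonneg_right h1 hN]
  have hT := pol_T_pol hx hM (by linarith) (by linarith)
  have hA : Pol N k (Real.exp Γ ^ k)
      fun t => (k : ℝ)⁻¹ * ∑ i ∈ Finset.range k, pol_T (1 + -2 / R * t) i := by
    refine Pol.mono le_rfl (le_of_eq ?_) (pol_smul _ (pol_sum (r := fun _ => Real.exp Γ ^ k) _
      fun i hi => Pol.mono (Finset.mem_range.mp hi).le
        (pow_le_pow_right₀ hM (Finset.mem_range.mp hi).le) (hT i)))
    rw [Finset.sum_const, Finset.card_range, nsmul_eq_mul, abs_of_pos (inv_pos.mpr hk0),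
      ← mul_assoc, inv_mul_cancel₀ hk0.ne', one_mul]
  have key : ∀ t, 0 ≤ t → t ≤ R → ∃ β, Real.sin β ^ 2 = t / R ∧
      ∀ i, pol_T (1 + -2 / R * t) i = Real.cos (i * (2 * β)) := fun t h0 h1 => by
    have h2 : Real.sin (Real.arcsin √(t / R)) ^ 2 = t / R := by
      rw [Real.sin_arcsin (le_trans (by norm_num) (Real.sqrt_nonneg _))
        (Real.sqrt_le_one.mpr ((div_le_one hR0).mpr h1)), Real.sq_sqrt (div_nonneg h0 hR0.le)]
    refine ⟨_, h2, fun i => ?_⟩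
    rw [← pol_T_cos, Real.cos_two_mul, Real.cos_sq', h2]
    exact congrArg (pol_T · i) (by ring)
  refine ⟨_, Pol.mono (two_mul k).ge (le_of_eq ?_) (Pol.mul hA hA), ?_, fun t h0 h1 => ?_⟩
  · rw [← Real.exp_nat_mul, ← Real.exp_add]
    exact congrArg _ (by ring)
  · obtain ⟨β, h2, h3⟩ := key 0 le_rfl hR0.le
    obtain ⟨g1, -, g3⟩ := pol_fej β hk rfl
    simp only [h3]
    rw [h2, zero_div, mul_zero] at g3
    linarith
  · obtain ⟨β, h2, h3⟩ := key t h0 h1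
    obtain ⟨g1, g2, g3⟩ := pol_fej β hk rfl
    simp only [h3]
    rw [h2] at g2 g3
    generalize ((k : ℝ)⁻¹ * ∑ i ∈ Finset.range k, Real.cos (i * (2 * β))) = A at g1 g2 g3 ⊢
    refine ⟨mul_self_nonneg A, g1, ?_, ?_⟩
    · have e : (k : ℝ) ^ 2 * (t / R) * (A * A) = (k : ℝ) ^ 2 * t * (A * A) / R := by ring
      rwa [e, div_le_one hR0] at g2
    · rwa [← mul_div_assoc, le_div_iff₀ hR0, mul_comm] at g3

theorem exists_zero_pol {N : ℝ} {Γ k w : ℕ} (hN : 0 ≤ N) (hΓ : 4 * N + 4 ≤ Real.exp Γ)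
    (h64 : 64 ≤ Γ) (hk : 1 ≤ k) (hw : 1 ≤ w) : ∃ q : ℝ → ℝ, P1 N (k * w * Γ ^ 3) q ∧ q 0 = 1 ∧
      ∀ t : ℕ, 1 ≤ t → (t : ℝ) ≤ N → t ≤ k ^ 2 * w → |q t| ≤ Real.exp (-(w : ℝ)) := by
  have hR : (1 : ℝ) ≤ ((k ^ 2 * w : ℕ) : ℝ) := Nat.one_le_cast.mpr (Nat.mul_pos (pow_pos hk 2) hw)
  obtain ⟨b, b1, b2, b3⟩ := fej (k := 2 * k) hN hΓ hR (by omega)
  have hp : Pol N (w * 1) (Real.exp Γ ^ w)
      fun t => ∏ i ∈ Finset.range w, (1 + -((i : ℝ) + 1)⁻¹ * t) := by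
    refine pol_prod w fun i => Pol.mono le_rfl ?_ (pol_aff _ Pol.id)
    have h0 : (0 : ℝ) ≤ i := Nat.cast_nonneg i
    have h1 : |-((i : ℝ) + 1)⁻¹| ≤ 1 := by
      rw [abs_neg, abs_of_pos (by positivity)]
      exact inv_le_one_of_one_le₀ (by linarith)
    linarith [mul_le_mul_of_nonneg_right h1 hN]
  have hnat : w * Γ + (w + w * Γ) * (2 * (2 * k) * Γ) ≤ k * w * Γ ^ 3 := by
    have h1 : w * Γ ≤ k * w * Γ := by
      rw [mul_assoc]
      exact Nat.le_mul_of_pos_left _ hk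
    have h2 : 1 + (1 + Γ) * 4 ≤ Γ ^ 2 := by nlinarith
    have h3 := Nat.mul_le_mul_left (k * w * Γ) h2
    calc _ ≤ k * w * Γ + (w + w * Γ) * (2 * (2 * k) * Γ) := by omega
      _ = k * w * Γ * (1 + (1 + Γ) * 4) := by ring
      _ ≤ k * w * Γ * Γ ^ 2 := h3
      _ = _ := by ring
  refine ⟨_, Pol.mono ?_ ?_ (Pol.mul hp (pol_pow (w + w * Γ) b1)), by simp [b2], fun t t1 t2 t3 => ?_⟩
  · refine le_trans (add_le_add (Nat.mul_le_mul_left w (by omega)) (Nat.mul_le_mul_left _ ?_)) hnat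
    exact Nat.le_mul_of_pos_right _ (by omega)
  · rw [← Real.exp_nat_mul, ← Real.exp_nat_mul, ← Real.exp_add, Real.exp_le_exp]
    exact_mod_cast hnat
  · rcases le_or_gt t w with h | h
    · have h1 : ∏ i ∈ Finset.range w, (1 + -((i : ℝ) + 1)⁻¹ * t) = 0 := by
        refine Finset.prod_eq_zero (i := t - 1) (Finset.mem_range.mpr (by omega)) ?_
        have h2 : (t : ℝ) ≠ 0 := Nat.cast_ne_zero.mpr (by omega)
        rw [Nat.cast_sub t1, Nat.cast_one, sub_add_cancel, neg_mul, inv_mul_cancel₀ h2, add_neg_cancel]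
      rw [h1, zero_mul, abs_zero]
      exact (Real.exp_pos _).le
    · have h1 := hp.bound (t := t) (by rwa [Nat.abs_cast])
      obtain ⟨g1, -, g3, -⟩ := b3 t (Nat.cast_nonneg t) (Nat.cast_le.mpr t3)
      have hk0 : (0 : ℝ) < k := Nat.cast_pos.mpr hk
      have ht0 : (0 : ℝ) < t := Nat.cast_pos.mpr t1
      have h2 : b t ≤ Real.exp (-1) := by
        have h3 : (k : ℝ) ^ 2 * w ≤ (k : ℝ) ^ 2 * t :=
          mul_le_mul_of_nonneg_left (Nat.cast_le.mpr h.le) (sq_nonneg _)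
        push_cast at g3
        have h4 : (k : ℝ) ^ 2 * t * b t ≤ (k : ℝ) ^ 2 * t * (1 / 4) := by linarith
        exact (le_of_mul_le_mul_left h4 (by positivity)).trans pol_quarter
      rw [abs_mul, abs_of_nonneg (pow_nonneg g1 _)]
      refine (mul_le_mul h1 (pow_le_pow_left₀ g1 h2 _) (pow_nonneg g1 _) (by positivity)).trans
        (le_of_eq ?_)
      rw [← Real.exp_nat_mul, ← Real.exp_nat_mul, ← Real.exp_add]
      push_cast
      exact congrArg _ (by ring)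

theorem pol_tail {w : ℕ} {s : Finset ℕ} (hs : s ⊆ Finset.range (2 * w + 1)) {c : ℝ} (hc : 0 ≤ c) :
    ∑ i ∈ s, c * ((2 * w).choose i : ℝ) ≤ c * 4 ^ w := by
  rw [← Finset.mul_sum]
  refine mul_le_mul_of_nonneg_left ((Finset.sum_le_sum_of_subset_of_nonneg hs
    fun i _ _ => Nat.cast_nonneg _).trans (le_of_eq ?_)) hc
  rw [← Nat.cast_sum, Nat.sum_range_choose, pow_mul]
  norm_num

theorem pol_small {w : ℕ} {x : ℝ} (h0 : 0 ≤ x) (h : x ≤ 1 / 16) :
    x ^ w * 4 ^ w ≤ Real.exp (-(w : ℝ)) := by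
  rw [← mul_pow, ← mul_neg_one, Real.exp_nat_mul]
  exact pow_le_pow_left₀ (by linarith) (le_trans (by linarith) pol_quarter) w

theorem exists_step_pol {N R : ℝ} {Γ k w : ℕ} (hN : 0 ≤ N) (hΓ : 4 * N + 4 ≤ Real.exp Γ)
    (h64 : 64 ≤ Γ) (hR : 1 ≤ R) (hk : 1 ≤ k) (hw : 1 ≤ w) :
    ∃ P : ℝ → ℝ, P1 N (k * w * Γ ^ 2) P ∧ ∀ t, 0 ≤ t → t ≤ R → 0 ≤ P t ∧ P t ≤ 1 ∧
      (64 * (k : ℝ) ^ 2 * t ≤ R → 1 - P t ≤ Real.exp (-(w : ℝ))) ∧
      (16 * R ≤ (k : ℝ) ^ 2 * t → P t ≤ Real.exp (-(w : ℝ))) := by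
  obtain ⟨b, b1, -, b3⟩ := fej hN hΓ hR hk
  have hR0 : 0 < R := by linarith
  obtain ⟨c, hc⟩ : ∃ c, c = Real.exp (2 * k * Γ) := ⟨_, rfl⟩
  have hc1 : 1 ≤ c := hc ▸ Real.one_le_exp (by positivity)
  rw [← hc] at b1
  have p1 : Pol N (2 * k) (2 * c) b := Pol.mono le_rfl (by linarith) b1
  have p2 : Pol N (2 * k) (2 * c) fun t => 1 - b t :=
    Pol.mono le_rfl (by rw [abs_neg, abs_one]; linarith)
      (pol_congr (pol_aff (-1) b1) fun t => by ring)
  have p3 : ∀ i ∈ (Finset.range (2 * w + 1)).filter (fun i => w < i),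
      Pol N (2 * w * (2 * k)) ((2 * c) ^ (2 * w) * ((2 * w).choose i : ℝ))
        fun t => b t ^ i * (1 - b t) ^ (2 * w - i) * ((2 * w).choose i : ℝ) := fun i hi => by
    have h1 : i + (2 * w - i) = 2 * w := by
      have := Finset.mem_range.mp (Finset.mem_filter.mp hi).1
      omega
    refine Pol.mono (le_of_eq ?_) (le_of_eq ?_)
      (Pol.mul (Pol.mul (pol_pow i p1) (pol_pow (2 * w - i) p2)) (Pol.const _))
    · rw [add_zero, ← add_mul, h1]
    · rw [← pow_add, h1, Nat.abs_cast]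
  refine ⟨_, Pol.mono ?_ ?_ (pol_sum _ p3), fun t t0 t1 => ?_⟩
  · calc 2 * w * (2 * k) = k * w * 4 := by ring
      _ ≤ _ := Nat.mul_le_mul_left _ (by nlinarith)
  · refine (pol_tail (Finset.filter_subset _ _) (by positivity)).trans ?_
    have h1 : 4 * c ≤ Real.exp (Γ + 2 * k * Γ) := by
      rw [Real.exp_add, ← hc]
      exact mul_le_mul_of_nonneg_right (by linarith) (by linarith)
    have h2 : (2 * c) ^ (2 * w) * 4 ^ w = (4 * c) ^ (2 * w) := by
      rw [pow_mul, pow_mul, ← mul_pow]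
      exact congrArg (· ^ w) (by ring)
    rw [h2]
    refine (pow_le_pow_left₀ (by linarith) h1 _).trans ?_
    rw [← Real.exp_nat_mul, Real.exp_le_exp]
    have h3 : 2 * w * (Γ + 2 * k * Γ) ≤ k * w * Γ ^ 2 := by
      have h4 : Γ ≤ k * Γ := Nat.le_mul_of_pos_left _ hk
      calc 2 * w * (Γ + 2 * k * Γ) ≤ 2 * w * (k * Γ + 2 * k * Γ) :=
            Nat.mul_le_mul_left _ (by omega)
        _ = k * w * Γ * 6 := by ring
        _ ≤ k * w * Γ * Γ := Nat.mul_le_mul_left _ (by omega)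
        _ = _ := by ring
    exact_mod_cast h3
  · obtain ⟨g1, g2, g3, g4⟩ := b3 t t0 t1
    have g5 : 0 ≤ 1 - b t := by linarith
    have h1 := add_pow (b t) (1 - b t) (2 * w)
    rw [add_sub_cancel, one_pow, ← Finset.sum_filter_add_sum_filter_not _ fun i => w < i] at h1
    have hnn : ∀ i, 0 ≤ b t ^ i * (1 - b t) ^ (2 * w - i) * ((2 * w).choose i : ℝ) := fun i => by
      positivity
    have h2 := Finset.sum_nonneg fun i
      (_ : i ∈ (Finset.range (2 * w + 1)).filter fun i => ¬w < i) => hnn i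
    refine ⟨Finset.sum_nonneg fun i _ => hnn i, by linarith, fun h => ?_, fun h => ?_⟩
    · have h3 : 1 - b t ≤ 1 / 16 := le_of_mul_le_mul_left (by linarith) hR0
      refine sub_le_iff_le_add'.mpr (h1.trans_le ?_)
      refine add_le_add le_rfl (le_trans (Finset.sum_le_sum fun i hi => ?_)
        ((pol_tail (Finset.filter_subset _ _) (pow_nonneg g5 w)).trans (pol_small g5 h3)))
      have h4 := (Finset.mem_filter.mp hi).2
      refine mul_le_mul_of_nonneg_right ?_ (Nat.cast_nonneg _)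
      exact (mul_le_of_le_one_left (pow_nonneg g5 _) (pow_le_one₀ g1 g2)).trans
        (pow_le_pow_of_le_one g5 (by linarith) (by omega))
    · have h3 : b t ≤ 1 / 16 :=
        le_of_mul_le_mul_left (by linarith [mul_le_mul_of_nonneg_right h g1]) hR0
      refine le_trans (Finset.sum_le_sum fun i hi => ?_)
        ((pol_tail (Finset.filter_subset _ _) (pow_nonneg g1 w)).trans (pol_small g1 h3))
      have h4 := (Finset.mem_filter.mp hi).2
      refine mul_le_mul_of_nonneg_right ?_ (Nat.cast_nonneg _)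
      exact (mul_le_of_le_one_right (pow_nonneg g1 _) (pow_le_one₀ g5 (by linarith))).trans
        (pow_le_pow_of_le_one g1 g2 h4.le)

end Vale.Agent.P368
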