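import Vale.Agent.P368.Basic
import Vale.Agent.P368.Pol

/-!
# Conjugating a local operator by a layer of reflections

* `Pol.loc`: induction (`loc_cnt`, `diagonal_mul_diagonal`, `diagonal_add`).
* `proj_op`: `q` from `exists_zero_pol`; pointwise `|1_{cnt = 0} - q (cnt)| ≤ exp (-w) + exp (size) 1_{cnt > k² w}`
  (`Pol.bound`, `cnt_le`), `nv_le_three`.
* `conj`: `Loc.approx` with `c = exp (3 f + k f Γ⁴)`, `ε = 3 exp (3 f - Γ f)`.  For `tens a` supported on `s`
  let `T = G.filter (¬ Disjoint · s)`; `T.card ≤ s.card` (disjointness).  `refl G = refl T * refl (G \ T)`,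
  the second factor commutes with `tens a` (`tens_comm_diagonal`) and squares to `1`.
  `refl T = ∑_{U ⊆ T} (-2)^|U| proj (U.biUnion id ∩ s) * proj (U.biUnion id \ s)` (`Finset.prod_one_add` or
  `Finset.prod_add` on the diagonal entries), and `proj (B \ s)` commutes with `tens a`, so
  `refl T * tens a * refl T = ∑_{U, U'} (-2)^(|U|+|U'|) (proj (..∩ s) * tens a * proj (..∩ s)) * proj ((B ∪ B') \ s)`.
  Replace the last factor by `0` or by `proj_op` with `w = Γ f` according to `TP`; `∑ 2^|U| = 3^|T|`.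
* `TP.of_dich`: `Dich` with `a = m`, `x = m + σ + 1`; `Loc.lo_le`, `Loc.hi_le`, `lo_le_add`, `hi_le_add`.
-/

namespace Vale.Agent.P368

open Matrix

variable {ι : Type} [Fintype ι] [DecidableEq ι]

/-- A layer of reflections `1 - 2 proj g`, `g ∈ G`. -/
noncomputable def refl (G : Finset (Finset ι)) : Op ι :=
  Matrix.diagonal fun z => ∏ g ∈ G, (1 - 2 * if cnt g z = 0 then 1 else 0 : ℂ)

def Disj (G : Finset (Finset ι)) : Prop := ∀ g ∈ G, ∀ g' ∈ G, g ≠ g' → Disjoint g g'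

/-- Every product projection is negligible on `u`, or `u` has at most `ρ` ones on its support. -/
def TP (u : Z ι → ℂ) (ρ σ : ℕ) : Prop :=
  ∀ S : Finset ι, lo S 0 u ≤ Real.exp (-(σ : ℝ)) ∨ hi S ρ u ≤ Real.exp (-(σ : ℝ))

/-- The dichotomy (no cat-like behaviour beyond scale `D`). -/
def Dich (ψ : Z ι → ℂ) (D : ℕ) : Prop :=
  ∀ (S : Finset ι) (a x : ℕ), 1 ≤ x →
    lo S a ψ ≤ Real.exp (-(x : ℝ)) ∨ hi S ((D * (a + x) : ℕ) : ℝ) ψ ≤ Real.exp (-(x : ℝ))

/-- The standing assumptions on the large parameter. -/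
structure Big (ι : Type) [Fintype ι] (Γ : ℕ) : Prop where
  h64 : 64 ≤ Γ
  card : 4 * (Fintype.card ι : ℝ) + 4 ≤ Real.exp Γ

theorem refl_star (G : Finset (Finset ι)) : (refl G)ᴴ = refl G := by
  rw [refl, diagonal_conjTranspose]
  refine congrArg diagonal (funext fun z => ?_)
  rw [Pi.star_apply, star_prod]
  refine Finset.prod_congr rfl fun g _ => ?_
  split_ifs <;> simp

theorem refl_mul_self (G : Finset (Finset ι)) : refl G * refl G = 1 := by
  rw [refl, diagonal_mul_diagonal, ← diagonal_one]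
  refine congrArg diagonal (funext fun z => ?_)
  rw [← Finset.prod_mul_distrib]
  refine Finset.prod_eq_one fun g _ => ?_
  split_ifs <;> norm_num

theorem norm_refl_mulVec (G : Finset (Finset ι)) (u : Z ι → ℂ) (z : Z ι) :
    ‖(refl G *ᵥ u) z‖ = ‖u z‖ := by
  rw [refl, mulVec_diagonal, norm_mul, norm_prod, Finset.prod_eq_one, one_mul]
  intro g _
  split_ifs <;> norm_num

theorem TP.refl {u : Z ι → ℂ} {ρ σ : ℕ} (h : TP u ρ σ) (G : Finset (Finset ι)) :
    TP (refl G *ᵥ u) ρ σ := fun S =>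
  (h S).imp (fun h1 => le_trans (nv_mono fun z => by
      split_ifs
      · exact (norm_refl_mulVec G u z).le
      · exact le_rfl) h1)
    fun h1 => le_trans (nv_mono fun z => by
      split_ifs
      · exact (norm_refl_mulVec G u z).le
      · exact le_rfl) h1

theorem TP.mono {u : Z ι → ℂ} {ρ ρ' σ : ℕ} (h : TP u ρ σ) (hρ : ρ ≤ ρ') : TP u ρ' σ := fun S =>
  (h S).imp id fun h1 => (hi_anti S (Nat.cast_le.mpr hρ) u).trans h1

theorem Dich.mono {ψ : Z ι → ℂ} {D D' : ℕ} (h : Dich ψ D) (hD : D ≤ D') : Dich ψ D' :=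
  fun S a x hx => (h S a x hx).imp id fun h1 =>
    (hi_anti S (Nat.cast_le.mpr (Nat.mul_le_mul_right _ hD)) ψ).trans h1

theorem Pol.loc {k : ℕ} {r : ℝ} {g : ℝ → ℝ} (h : Pol (Fintype.card ι) k r g) (S : Finset ι) :
    Loc k r (dg S g) := by
  induction h with
  | const c =>
    have e : dg S (fun _ => c) = (c : ℂ) • (1 : Op ι) := by
      rw [dg, ← diagonal_one, ← diagonal_smul]
      exact congrArg diagonal (funext fun z => by simp)
    rw [e]
    exact Loc.mono (by simp) (Loc.smul (c : ℂ) (loc_one 0))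
  | id => exact loc_cnt S
  | @add k r r' f g _ _ h1 h2 =>
    have e : dg S (fun t => f t + g t) = dg S f + dg S g := by
      simp only [dg, diagonal_add, Complex.ofReal_add]
    rw [e]
    exact Loc.add h1 h2
  | @mul k k' r r' f g _ _ h1 h2 =>
    have e : dg S (fun t => f t * g t) = dg S f * dg S g := by
      simp only [dg, diagonal_mul_diagonal, Complex.ofReal_mul]
    rw [e]
    exact Loc.mul h1 h2
  | mono hk hr _ h1 => exact h1.mono' hk hr

theorem proj_op {Γ k w : ℕ} (hΓ : Big ι Γ) (hk : 1 ≤ k) (hw : 1 ≤ w) (S : Finset ι)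
    (u : Z ι → ℂ) : ∃ Q, L1 (k * w * Γ ^ 3) Q ∧ nv (proj S *ᵥ u - Q *ᵥ u) ≤
      Real.exp (-(w : ℝ)) * nv u +
        Real.exp ((k * w * Γ ^ 3 : ℕ) : ℝ) * hi S ((k ^ 2 * w : ℕ) : ℝ) u := by
  obtain ⟨q, q1, q2, q3⟩ := exists_zero_pol (Nat.cast_nonneg _) hΓ.card hΓ.h64 hk hw
  refine ⟨dg S q, Pol.loc q1 S, ?_⟩
  have h := nv_le_three (v := proj S *ᵥ u - dg S q *ᵥ u) (w₁ := u) (w₃ := u)
    (w₂ := fun z => if ((k ^ 2 * w : ℕ) : ℝ) < (cnt S z : ℝ) then u z else 0)
    (Real.exp_pos (-(w : ℝ))).le (Real.exp_pos ((k * w * Γ ^ 3 : ℕ) : ℝ)).le le_rfl fun z => by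
      have p1 := mul_nonneg (Real.exp_pos (-(w : ℝ))).le (norm_nonneg (u z))
      have p2 := mul_nonneg (Real.exp_pos ((k * w * Γ ^ 3 : ℕ) : ℝ)).le
        (norm_nonneg (if ((k ^ 2 * w : ℕ) : ℝ) < (cnt S z : ℝ) then u z else 0))
      have hc : (cnt S z : ℝ) ≤ Fintype.card ι := Nat.cast_le.mpr (cnt_le S z)
      rw [Pi.sub_apply, proj, dg, mulVec_diagonal, mulVec_diagonal, zero_mul, add_zero]
      by_cases h0 : cnt S z = 0
      · rw [if_pos h0, show q (cnt S z) = 1 by rw [h0, Nat.cast_zero, q2], Complex.ofReal_one,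
          sub_self, norm_zero]
        linarith
      · rw [if_neg h0, zero_mul, zero_sub, norm_neg, norm_mul, Complex.norm_real, Real.norm_eq_abs]
        rcases le_or_gt (cnt S z) (k ^ 2 * w) with h1 | h1
        · have := mul_le_mul_of_nonneg_right (q3 _ (by omega) hc h1) (norm_nonneg (u z))
          linarith
        · have := mul_le_mul_of_nonneg_right (q1.bound (t := cnt S z) (by rwa [Nat.abs_cast]))
            (norm_nonneg (u z))
          rw [if_pos (Nat.cast_lt.mpr h1)]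
          linarith
  rwa [zero_mul, add_zero] at h

omit [Fintype ι] [DecidableEq ι] in
theorem conj_cnt {g s : Finset ι} (h : Disjoint g s) {z y : Z ι} (hz : ∀ q ∉ s, z q = y q) :
    cnt g z = cnt g y :=
  congrArg Finset.card (Finset.filter_congr fun q hq => by
    rw [hz q (Finset.disjoint_left.mp h hq)])

theorem conj_proj_union (B B' : Finset ι) : proj (B ∪ B') = proj B * proj B' := by
  rw [proj, proj, proj, diagonal_mul_diagonal]
  refine congrArg diagonal (funext fun z => ?_)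
  simp only [cnt_eq_zero, Finset.forall_mem_union, ite_and, ite_mul, one_mul, zero_mul]

theorem conj_split {a : ι → Matrix Bool Bool ℂ} {s : Finset ι} (h1 : ∀ q ∉ s, a q = 1)
    (B B' : Finset ι) : proj B * tens a * proj B' =
      proj (B ∩ s) * tens a * proj (B' ∩ s) * proj ((B ∪ B') \ s) := by
  have e1 : proj (B \ s) * tens a = tens a * proj (B \ s) :=
    (tens_comm_diagonal h1 fun z y h => by rw [conj_cnt Finset.sdiff_disjoint h]).symm
  have e2 : proj B = proj (B ∩ s) * proj (B \ s) := by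
    rw [← conj_proj_union, Finset.union_comm, Finset.sdiff_union_inter]
  have e3 : proj (B \ s) * proj B' = proj (B' ∩ s) * proj ((B ∪ B') \ s) := by
    rw [← conj_proj_union, ← conj_proj_union]
    refine congrArg proj (Finset.ext fun q => ?_)
    simp only [Finset.mem_union, Finset.mem_sdiff, Finset.mem_inter]
    tauto
  rw [e2, mul_assoc (proj (B ∩ s)), e1]
  simp only [mul_assoc, e3]

theorem conj_term {Γ k f : ℕ} (hΓ : Big ι Γ) (hk : 1 ≤ k) (hf : 1 ≤ f) {u : Z ι → ℂ}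
    (hu : nv u ≤ 2) (hT : TP u (k ^ 2 * f) (k * f * Γ ^ 5)) {a : ι → Matrix Bool Bool ℂ}
    {s : Finset ι} (hs : s.card ≤ f) (ha : Uni a) (h1 : ∀ q ∉ s, a q = 1) (B B' : Finset ι) :
    ∃ A', Loc (k * f * Γ ^ 5) (Real.exp ((k * f * Γ ^ 4 : ℕ) : ℝ)) A' ∧
      nv ((proj B * tens a * proj B') *ᵥ u - A' *ᵥ u) ≤ 3 * Real.exp (-((Γ * f : ℕ) : ℝ)) := by
  have h64 := hΓ.h64
  have hX : Loc (f + f + f) 1 (proj (B ∩ s) * tens a * proj (B' ∩ s)) := by
    have h2 : ∀ B : Finset ι, Loc f 1 (proj (B ∩ s)) := fun B =>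
      (loc_proj _).mono' ((Finset.card_le_card Finset.inter_subset_right).trans hs) le_rfl
    exact (((h2 B).mul (Loc.tens a s hs ha h1)).mul (h2 B')).mono' le_rfl (by norm_num)
  have n1 : Γ * f ≤ k * f * Γ ^ 4 := by
    calc Γ * f = 1 * f * Γ ^ 1 := by ring
      _ ≤ _ := Nat.mul_le_mul (Nat.mul_le_mul_right f hk) (Nat.pow_le_pow_right (by omega) (by omega))
  have n2 : k * f * Γ ^ 4 * 64 ≤ k * f * Γ ^ 5 := by
    rw [pow_succ Γ 4, ← mul_assoc]
    exact Nat.mul_le_mul_left _ h64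
  have n3 : 64 * f ≤ Γ * f := Nat.mul_le_mul_right f h64
  have hE := Real.exp_pos (-((Γ * f : ℕ) : ℝ))
  rw [conj_split h1, ← mulVec_mulVec]
  rcases hT ((B ∪ B') \ s) with h | h
  · refine ⟨0, (loc_zero _).mono' le_rfl (Real.exp_pos _).le, ?_⟩
    rw [zero_mulVec, sub_zero]
    refine (hX.nv_le _).trans ?_
    rw [one_mul, nv_proj]
    have h2 : Real.exp (-((k * f * Γ ^ 5 : ℕ) : ℝ)) ≤ Real.exp (-((Γ * f : ℕ) : ℝ)) :=
      Real.exp_le_exp.mpr (neg_le_neg (Nat.cast_le.mpr (by omega)))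
    linarith
  · obtain ⟨Q, q1, q2⟩ := proj_op (w := Γ * f) hΓ hk (by omega) ((B ∪ B') \ s) u
    have e : k * (Γ * f) * Γ ^ 3 = k * f * Γ ^ 4 := by ring
    rw [e] at q1 q2
    refine ⟨_, (hX.mul q1).mono' (by omega) (one_mul _).le, ?_⟩
    rw [← mulVec_mulVec u _ Q, ← mulVec_sub]
    refine (hX.nv_le _).trans ?_
    have h2 : hi ((B ∪ B') \ s) ((k ^ 2 * (Γ * f) : ℕ) : ℝ) u ≤
        Real.exp (-((k * f * Γ ^ 5 : ℕ) : ℝ)) :=
      (hi_anti _ (Nat.cast_le.mpr (Nat.mul_le_mul_left _ (by omega))) u).trans h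
    have h3 := mul_le_mul_of_nonneg_left h2 (Real.exp_pos ((k * f * Γ ^ 4 : ℕ) : ℝ)).le
    have h4 : Real.exp ((k * f * Γ ^ 4 : ℕ) : ℝ) * Real.exp (-((k * f * Γ ^ 5 : ℕ) : ℝ)) ≤
        Real.exp (-((Γ * f : ℕ) : ℝ)) := by
      rw [← Real.exp_add, Real.exp_le_exp]
      have h5 : ((k * f * Γ ^ 4 + Γ * f : ℕ) : ℝ) ≤ ((k * f * Γ ^ 5 : ℕ) : ℝ) :=
        Nat.cast_le.mpr (by omega)
      rw [Nat.cast_add] at h5
      linarith
    have h5 := mul_le_mul_of_nonneg_left hu hE.le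
    linarith

theorem conj_sum {κ : Type} (s : Finset κ) (c : κ → ℂ) (X : κ → Op ι) (u : Z ι → ℂ) {m : ℕ}
    {r ε : ℝ} (h : ∀ i, ∃ A', Loc m r A' ∧ nv (X i *ᵥ u - A' *ᵥ u) ≤ ε) :
    ∃ A', Loc m ((∑ i ∈ s, ‖c i‖) * r) A' ∧
      nv ((∑ i ∈ s, c i • X i) *ᵥ u - A' *ᵥ u) ≤ (∑ i ∈ s, ‖c i‖) * ε := by
  choose A h1 h2 using h
  refine ⟨∑ i ∈ s, c i • A i, ?_, ?_⟩
  · rw [Finset.sum_mul]
    exact Loc.sum fun i _ => Loc.smul _ (h1 i)
  · rw [sum_mulVec, sum_mulVec, ← Finset.sum_sub_distrib, Finset.sum_mul]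
    refine (nv_sum_le _ _).trans (Finset.sum_le_sum fun i _ => ?_)
    rw [smul_mulVec, smul_mulVec, ← smul_sub, nv_smul]
    exact mul_le_mul_of_nonneg_left (h2 i) (norm_nonneg _)

theorem conj_expand (T : Finset (Finset ι)) :
    refl T = ∑ U ∈ T.powerset, (-2 : ℂ) ^ U.card • proj (U.biUnion id) := by
  ext z y
  rw [refl, Matrix.sum_apply]
  by_cases h : z = y
  · subst h
    simp only [diagonal_apply_eq, proj, Matrix.smul_apply, sub_eq_add_neg, ← neg_mul, smul_eq_mul]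
    rw [Finset.prod_one_add]
    refine Finset.sum_congr rfl fun U _ => ?_
    rw [Finset.prod_mul_distrib, Finset.prod_const, Finset.prod_boole]
    simp only [cnt_eq_zero, Finset.mem_biUnion, id]
    exact congrArg _ (if_congr ⟨fun h q ⟨g, hg, hq⟩ => h g hg q hq,
      fun h g hg q hq => h q ⟨g, hg, hq⟩⟩ rfl rfl)
  · simp only [diagonal_apply_ne _ h, proj, Matrix.smul_apply, smul_zero, Finset.sum_const_zero]

omit [Fintype ι] [DecidableEq ι] in
theorem conj_mass (T : Finset (Finset ι)) :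
    ∑ U ∈ T.powerset, ‖(-2 : ℂ) ^ U.card‖ = 3 ^ T.card := by
  have h := Finset.prod_one_add (f := fun _ => (2 : ℝ)) T
  simp only [Finset.prod_const] at h
  simp only [norm_pow, norm_neg, Complex.norm_ofNat]
  rw [← h]
  norm_num

theorem conj_red {G : Finset (Finset ι)} (hG : Disj G) {a : ι → Matrix Bool Bool ℂ} {s : Finset ι}
    (h1 : ∀ q ∉ s, a q = 1) : ∃ T : Finset (Finset ι), T.card ≤ s.card ∧
      refl G * tens a * refl G = refl T * tens a * refl T := by
  refine ⟨G.filter fun g => ¬Disjoint g s, ?_, ?_⟩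
  · refine (Finset.card_le_card_biUnion (f := fun g => g ∩ s) (fun g hg g' hg' h => ?_)
      fun g hg => ?_).trans (Finset.card_le_card (Finset.biUnion_subset.mpr fun g _ =>
        Finset.inter_subset_right))
    · exact (hG g (Finset.mem_filter.mp hg).1 g' (Finset.mem_filter.mp hg').1 h).mono
        Finset.inter_subset_left Finset.inter_subset_left
    · exact Finset.not_disjoint_iff_nonempty_inter.mp (Finset.mem_filter.mp hg).2
  · have e1 : refl G = refl (G.filter fun g => ¬Disjoint g s) *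
        refl (G.filter fun g => Disjoint g s) := by
      simp only [refl, diagonal_mul_diagonal]
      refine congrArg diagonal (funext fun z => ?_)
      rw [mul_comm, Finset.prod_filter_mul_prod_filter_not]
    have e2 : refl G = refl (G.filter fun g => Disjoint g s) *
        refl (G.filter fun g => ¬Disjoint g s) := by
      simp only [refl, diagonal_mul_diagonal]
      refine congrArg diagonal (funext fun z => ?_)
      rw [Finset.prod_filter_mul_prod_filter_not]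
    have e3 : tens a * refl (G.filter fun g => Disjoint g s) =
        refl (G.filter fun g => Disjoint g s) * tens a :=
      tens_comm_diagonal h1 fun z y h => Finset.prod_congr rfl fun g hg => by
        rw [conj_cnt (Finset.mem_filter.mp hg).2 h]
    calc refl G * tens a * refl G = refl (G.filter fun g => ¬Disjoint g s) *
          refl (G.filter fun g => Disjoint g s) * tens a * (refl (G.filter fun g => Disjoint g s) *
            refl (G.filter fun g => ¬Disjoint g s)) := by rw [← e1, ← e2]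
      _ = refl (G.filter fun g => ¬Disjoint g s) * tens a * ((refl (G.filter fun g => Disjoint g s) *
          refl (G.filter fun g => Disjoint g s)) * refl (G.filter fun g => ¬Disjoint g s)) := by
        rw [mul_assoc _ _ (tens a), ← e3]
        simp only [mul_assoc]
      _ = _ := by rw [refl_mul_self, one_mul]

theorem conj {Γ k f : ℕ} (hΓ : Big ι Γ) (hk : 1 ≤ k) (hf : 1 ≤ f) {G : Finset (Finset ι)}
    (hG : Disj G) {u : Z ι → ℂ} (hu : nv u ≤ 2) (hT : TP u (k ^ 2 * f) (k * f * Γ ^ 5))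
    {Q : Op ι} (hQ : L1 f Q) : ∃ Q', L1 (k * f * Γ ^ 5) Q' ∧
      nv ((refl G * Q * refl G) *ᵥ u - Q' *ᵥ u) ≤ Real.exp (-(f : ℝ)) := by
  have h64 := hΓ.h64
  have hf0 : (1 : ℝ) ≤ f := Nat.one_le_cast.mpr hf
  have h3 : (3 : ℝ) ≤ Real.exp 2 := by linarith [Real.add_one_le_exp 2]
  obtain ⟨Q', q1, q2⟩ := Loc.approx (m' := k * f * Γ ^ 5)
    (c := Real.exp (f * 2) * (Real.exp (f * 2) * Real.exp ((k * f * Γ ^ 4 : ℕ) : ℝ)))
    (ε := Real.exp (f * 2) * (Real.exp (f * 2) * (3 * Real.exp (-((Γ * f : ℕ) : ℝ)))))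
    (refl G) (refl G) u (fun a s hs ha h1 => by
      obtain ⟨T, hT1, hT2⟩ := conj_red hG h1
      have hm : ∑ U ∈ T.powerset, ‖(-2 : ℂ) ^ U.card‖ ≤ Real.exp (f * 2) := by
        rw [conj_mass, Real.exp_nat_mul]
        exact (pow_le_pow_right₀ (by norm_num) (hT1.trans hs)).trans
          (pow_le_pow_left₀ (by norm_num) h3 f)
      have h2 : ∀ B : Finset ι, ∃ A', Loc (k * f * Γ ^ 5)
          (Real.exp (f * 2) * Real.exp ((k * f * Γ ^ 4 : ℕ) : ℝ)) A' ∧
          nv ((proj B * tens a * refl T) *ᵥ u - A' *ᵥ u) ≤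
            Real.exp (f * 2) * (3 * Real.exp (-((Γ * f : ℕ) : ℝ))) := fun B => by
        obtain ⟨A', g1, g2⟩ := conj_sum T.powerset (fun U => (-2 : ℂ) ^ U.card)
          (fun U => proj B * tens a * proj (U.biUnion id)) u
          fun U => conj_term hΓ hk hf hu hT hs ha h1 B _
        refine ⟨A', g1.mono' le_rfl (mul_le_mul_of_nonneg_right hm (Real.exp_pos _).le), ?_⟩
        rw [conj_expand, Finset.mul_sum]
        simp only [mul_smul_comm]
        exact g2.trans (mul_le_mul_of_nonneg_right hm (by positivity))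
      obtain ⟨A', g1, g2⟩ := conj_sum T.powerset (fun U => (-2 : ℂ) ^ U.card)
        (fun U => proj (U.biUnion id) * tens a * refl T) u fun U => h2 _
      refine ⟨A', g1.mono' le_rfl (mul_le_mul_of_nonneg_right hm (by positivity)), ?_⟩
      have e : refl T * tens a * refl T =
          ∑ U ∈ T.powerset, (-2 : ℂ) ^ U.card • (proj (U.biUnion id) * tens a * refl T) := by
        simp only [← smul_mul_assoc]
        rw [← Finset.sum_mul, ← Finset.sum_mul, ← conj_expand]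
      rw [hT2, e]
      exact g2.trans (mul_le_mul_of_nonneg_right hm (by positivity))) hQ
  refine ⟨Q', q1.mono' le_rfl ?_, q2.trans ?_⟩
  · simp only [← Real.exp_add]
    rw [Real.exp_le_exp]
    have n1 : f * 64 ≤ k * f * Γ ^ 4 := by
      calc f * 64 ≤ 1 * f * Γ ^ 1 := by
            rw [one_mul, pow_one]
            exact Nat.mul_le_mul_left f h64
        _ ≤ _ := Nat.mul_le_mul (Nat.mul_le_mul_right f hk)
            (Nat.pow_le_pow_right (by omega) (by omega))
    have n2 : k * f * Γ ^ 4 * 64 ≤ k * f * Γ ^ 5 := by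
      rw [pow_succ Γ 4, ← mul_assoc]
      exact Nat.mul_le_mul_left _ h64
    have n3 : ((5 * f + k * f * Γ ^ 4 : ℕ) : ℝ) ≤ ((k * f * Γ ^ 5 : ℕ) : ℝ) :=
      Nat.cast_le.mpr (by omega)
    rw [Nat.cast_add, Nat.cast_mul 5, Nat.cast_ofNat] at n3
    linarith
  · have n1 : ((64 * f : ℕ) : ℝ) ≤ ((Γ * f : ℕ) : ℝ) := Nat.cast_le.mpr (Nat.mul_le_mul_right f h64)
    rw [Nat.cast_mul 64, Nat.cast_ofNat] at n1
    calc _ ≤ Real.exp f * (Real.exp (f * 2) * (Real.exp (f * 2) *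
          (Real.exp 2 * Real.exp (-((Γ * f : ℕ) : ℝ))))) := by gcongr
      _ ≤ _ := by
        simp only [← Real.exp_add]
        rw [Real.exp_le_exp]
        linarith

theorem TP.of_dich {Γ m σ : ℕ} (h64 : 64 ≤ Γ) {ψ u : Z ι → ℂ} (hD : Dich ψ Γ) {A : Op ι}
    (hA : L1 m A) (hσ : 1 ≤ σ) (hm : σ ≤ m) (hu : nv (u - A *ᵥ ψ) ≤ Real.exp (-(σ : ℝ)) / 2) :
    TP u (Γ ^ 2 * m) σ := by
  intro S
  have h1 : Real.exp m * Real.exp (-((m + σ + 1 : ℕ) : ℝ)) ≤ Real.exp (-(σ : ℝ)) / 2 := by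
    have e : (m : ℝ) + -((m + σ + 1 : ℕ) : ℝ) = -(σ : ℝ) + -1 := by
      push_cast
      ring
    rw [← Real.exp_add, e, Real.exp_add]
    have h2 := mul_le_mul_of_nonneg_left Real.exp_neg_one_lt_d9.le (Real.exp_pos (-(σ : ℝ))).le
    linarith [Real.exp_pos (-(σ : ℝ))]
  refine (hD S m (m + σ + 1) (by omega)).imp (fun h => ?_) fun h => ?_
  · have h2 := lo_le_add S 0 u (A *ᵥ ψ)
    have h3 := hA.lo_le S 0 ψ
    rw [zero_add] at h3
    have h4 := mul_le_mul_of_nonneg_left h (Real.exp_pos (m : ℝ)).le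
    linarith
  · have n1 : Γ * (m + (m + σ + 1)) + m ≤ Γ ^ 2 * m := by
      have n2 : Γ * (m + (m + σ + 1)) ≤ Γ * (4 * m) := Nat.mul_le_mul_left _ (by omega)
      have n3 : m ≤ Γ * m := Nat.le_mul_of_pos_left _ (by omega)
      calc _ ≤ Γ * (4 * m) + Γ * m := add_le_add n2 n3
        _ = 5 * (Γ * m) := by ring
        _ ≤ Γ * (Γ * m) := Nat.mul_le_mul_right _ (by omega)
        _ = _ := by ring
    have h2 := hi_le_add S (((Γ * (m + (m + σ + 1)) : ℕ) : ℝ) + m) u (A *ᵥ ψ)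
    have h3 := hA.hi_le S ((Γ * (m + (m + σ + 1)) : ℕ) : ℝ) ψ
    have h4 := mul_le_mul_of_nonneg_left h (Real.exp_pos (m : ℝ)).le
    have h5 := hi_anti S (a := ((Γ * (m + (m + σ + 1)) : ℕ) : ℝ) + m) (b := ((Γ ^ 2 * m : ℕ) : ℝ))
      (by exact_mod_cast n1) u
    linarith

end Vale.Agent.P368
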