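import Mathlib

namespace Vale.Agent.P368

/-- Computational basis states of `N` qubits. -/
abbrev Bits (N : ℕ) : Type := Fin N → Bool

/-- A gate on `N` qubits: an arbitrary one-qubit unitary `u` on qubit `q`, or a generalized
Toffoli gate with a nonempty set `c` of control qubits and target qubit `t`. -/
inductive Gate (N : ℕ) : Type
  | one (q : Fin N) (u : Matrix.unitaryGroup Bool ℂ) : Gate N
  | tof (c : Finset (Fin N)) (t : Fin N) (hc : c.Nonempty) (ht : t ∉ c) : Gate N

/-- The qubits a gate acts on. -/
def Gate.supp {N : ℕ} : Gate N → Finset (Fin N)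
  | .one q _ => {q}
  | .tof c t _ _ => insert t c

/-- The operator of a gate on all `N` qubits (entry at row `z`, column `y`). -/
def Gate.mat {N : ℕ} : Gate N → Matrix (Bits N) (Bits N) ℂ
  | .one q u => Matrix.of fun z y => if ∀ k, k ≠ q → z k = y k then u.1 (z q) (y q) else 0
  | .tof c t _ _ => Matrix.of fun z y =>
      if z = Function.update y t (xor (y t) (decide (∀ k ∈ c, y k = true))) then 1 else 0

/-- A layer: gates with pairwise disjoint supports. -/
structure Layer (N : ℕ) where
  gates : List (Gate N)
  disj : gates.Pairwise fun g g' => Disjoint g.supp g'.supp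

/-- The operator of a layer. -/
def Layer.mat {N : ℕ} (L : Layer N) : Matrix (Bits N) (Bits N) ℂ := (L.gates.map Gate.mat).prod

/-- The operator of a circuit, a list of layers applied in order (the depth is the length). -/
def circMat {N : ℕ} (C : List (Layer N)) : Matrix (Bits N) (Bits N) ℂ :=
  (C.reverse.map Layer.mat).prod

/-- The initial basis state `|x⟩ ⊗ |0 … 0⟩`. -/
def input {n : ℕ} (N : ℕ) (x : Fin n → Bool) : Bits N :=
  fun k => if h : k.1 < n then x ⟨k.1, h⟩ else false

/-- The parity of `x`. -/
def par {n : ℕ} (x : Fin n → Bool) : Bool :=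
  decide (Odd (Finset.univ.filter fun i => x i = true).card)

/-- The probability that measuring qubit `out` after running `C` on input `x` gives `b`. -/
noncomputable def prob {n N : ℕ} (C : List (Layer N)) (out : Fin N) (x : Fin n → Bool) (b : Bool) :
    ℝ :=
  ∑ z ∈ Finset.univ.filter fun z : Bits N => z out = b, ‖circMat C z (input N x)‖ ^ 2

/-- The parity correlation: the average over uniform `x` of `Pr[correct] - Pr[wrong]`. -/
noncomputable def corr (n : ℕ) {N : ℕ} (C : List (Layer N)) (out : Fin N) : ℝ :=
  (∑ x : Fin n → Bool, (prob C out x (par x) - prob C out x (!par x))) / 2 ^ n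

end Vale.Agent.P368
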