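import Vale.Agent.P368.Defs
import Vale.Agent.P368.Back

/-!
# Normal form of circuits

* `gate_nf`: a one-qubit gate is `tens (update 1 q u) * refl ∅ * tens 1`.  A Toffoli gate is
  `tens (star b) * refl {insert t c} * tens b` where `b = X` on the controls, `b t` is a unitary mapping
  `|-⟩ ↦ |0⟩`, and `1` elsewhere: `tens (star b) * proj S * tens b = tens (star b * π * b)` with
  `proj S = tens π`, `π q = |0⟩⟨0|` on `S`; compare entries of `1 - 2 tens (..)` with the permutation matrix.
* `layer_nf`: induction on the list with the invariant that `a, b` are `1` and `G` lives inside the union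
  of the supports; operators with disjoint supports commute (`tens_mul`, `tens_comm_diagonal`).
* `exists_nf`: induction on the list (from the end), changing `V`, `G` with `Function.update`
  (`C j` only depends on `V i`, `i ≤ j`, and `G i`, `i < j`); pad with `G = ∅`, `V = 1`.
-/

namespace Vale.Agent.P368

open Matrix

variable {N : ℕ}

theorem nm_refl_empty : refl (∅ : Finset (Finset (Fin N))) = 1 := by
  simp [refl]

theorem nm_disj_empty : Disj (∅ : Finset (Finset (Fin N))) := fun g hg => absurd hg (by simp)

theorem nm_tens_split (m : Fin N → Matrix Bool Bool ℂ) (t : Fin N) (z y : Z (Fin N)) :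
    tens m z y = m t (z t) (y t) * ∏ k ∈ Finset.univ.erase t, m k (z k) (y k) :=
  (Finset.mul_prod_erase Finset.univ (fun k => m k (z k) (y k)) (Finset.mem_univ t)).symm

theorem nm_prod_one (t : Fin N) (z y : Z (Fin N)) :
    ∏ k ∈ Finset.univ.erase t, (1 : Matrix Bool Bool ℂ) (z k) (y k) =
      if ∀ k, k ≠ t → z k = y k then 1 else 0 := by
  simp only [Matrix.one_apply]
  rw [Finset.prod_boole]
  simp

theorem nm_tens_diagonal (d : Fin N → Bool → ℂ) :
    tens (fun k => diagonal (d k)) = diagonal fun z => ∏ k, d k (z k) := by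
  ext z y
  by_cases h : z = y
  · subst h
    simp [tens]
  · obtain ⟨k, hk⟩ := Function.ne_iff.1 h
    rw [diagonal_apply_ne _ h]
    exact Finset.prod_eq_zero (Finset.mem_univ k) (diagonal_apply_ne _ hk)

theorem nm_refl_single (S : Finset (Fin N)) : refl {S} =
    1 - (2 : ℂ) • tens fun k => diagonal fun b => if k ∈ S ∧ b = true then (0 : ℂ) else 1 := by
  rw [nm_tens_diagonal, refl, ← diagonal_smul, ← diagonal_one, diagonal_sub]
  congr 1
  funext z
  rw [Finset.prod_singleton, Pi.smul_apply, smul_eq_mul]
  congr 2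
  split_ifs with h
  · refine (Finset.prod_eq_one fun k _ => if_neg fun hk => ?_).symm
    have := cnt_eq_zero.1 h k hk.1
    rw [hk.2] at this
    exact Bool.noConfusion this
  · rw [cnt_eq_zero] at h
    push Not at h
    obtain ⟨k, hk, hk'⟩ := h
    symm
    refine Finset.prod_eq_zero (Finset.mem_univ k) ?_
    exact if_pos ⟨hk, by simpa using hk'⟩

/-- The Pauli matrix `X`. -/
def nmX : Matrix Bool Bool ℂ := Matrix.of fun r c => if r = c then 0 else 1

/-- A unitary mapping `|-⟩` to a multiple of `|0⟩`. -/
noncomputable def nmH : Matrix Bool Bool ℂ :=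
  Matrix.of fun r c => if r = false ∧ c = true then -⟨1 / 2, 1 / 2⟩ else ⟨1 / 2, 1 / 2⟩

theorem nmX_mem : nmX ∈ Matrix.unitaryGroup Bool ℂ := by
  rw [Matrix.mem_unitaryGroup_iff']
  ext r c
  cases r <;> cases c <;> simp [nmX, Matrix.mul_apply]

theorem nmH_mem : nmH ∈ Matrix.unitaryGroup Bool ℂ := by
  rw [Matrix.mem_unitaryGroup_iff']
  ext r c
  cases r <;> cases c <;> simp [nmH, Matrix.mul_apply, Complex.ext_iff] <;> norm_num

theorem nmX_conj (r c : Bool) :
    (star nmX * diagonal (fun b => if b = true then (0 : ℂ) else 1) * nmX) r c =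
      if r = true ∧ c = true then 1 else 0 := by
  cases r <;> cases c <;> simp [nmX, Matrix.mul_apply, diagonal_apply]

theorem nmH_conj (r c : Bool) :
    (star nmH * diagonal (fun b => if b = true then (0 : ℂ) else 1) * nmH) r c =
      if r = c then 1 / 2 else -(1 / 2) := by
  cases r <;> cases c <;> simp [nmH, Matrix.mul_apply, diagonal_apply, Complex.ext_iff] <;> norm_num

theorem gate_nf (g : Gate N) : ∃ (a b : Fin N → Matrix Bool Bool ℂ) (G : Finset (Finset (Fin N))),
    Uni a ∧ Uni b ∧ Disj G ∧ (∀ q ∉ g.supp, a q = 1 ∧ b q = 1) ∧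
      (∀ s ∈ G, s.Nonempty ∧ s ⊆ g.supp) ∧ g.mat = tens a * refl G * tens b := by
  cases g with
  | one q u =>
    refine ⟨Function.update 1 q u.1, 1, ∅, fun k => ?_, uni_one, nm_disj_empty, fun k hk => ?_,
      by simp, ?_⟩
    · by_cases h : k = q
      · subst h
        rw [Function.update_self]
        exact u.2
      · rw [Function.update_of_ne h]
        exact one_mem _
    · have h : k ≠ q := by simpa [Gate.supp] using hk
      exact ⟨Function.update_of_ne h _ _, rfl⟩
    · rw [nm_refl_empty, tens_one, mul_one, mul_one]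
      ext z y
      rw [nm_tens_split _ q, Function.update_self, Finset.prod_congr rfl fun k hk => by
        rw [Function.update_of_ne (Finset.ne_of_mem_erase hk), Pi.one_apply], nm_prod_one]
      simp [Gate.mat]
  | tof c t hc ht =>
    obtain ⟨b, hb⟩ : ∃ b : Fin N → Matrix Bool Bool ℂ,
      b = fun k => if k = t then nmH else if k ∈ c then nmX else 1 := ⟨_, rfl⟩
    have hu : Uni b := fun k => by
      rw [hb]
      dsimp only
      split_ifs
      exacts [nmH_mem, nmX_mem, one_mem _]
    have h1 : ∀ q ∉ insert t c, b q = 1 := fun q hq => by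
      rw [Finset.mem_insert, not_or] at hq
      rw [hb]
      exact (if_neg hq.1).trans (if_neg hq.2)
    refine ⟨star b, b, {insert t c}, hu.star, hu, fun g hg g' hg' h => ?_, fun q hq => ?_,
      fun s hs => ?_, ?_⟩
    · exact absurd ((Finset.mem_singleton.1 hg).trans (Finset.mem_singleton.1 hg').symm) h
    · refine ⟨?_, h1 q hq⟩
      rw [Pi.star_apply, h1 q hq, star_one]
    · rw [Finset.mem_singleton.1 hs]
      exact ⟨Finset.insert_nonempty _ _, subset_rfl⟩
    · rw [nm_refl_single, mul_sub, sub_mul, mul_one, ← tens_star, hu.left, tens_star,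
        Matrix.mul_smul, Matrix.smul_mul, tens_mul, tens_mul]
      obtain ⟨m, hm⟩ : ∃ m : Fin N → Matrix Bool Bool ℂ, m = star b * (fun k => diagonal fun b =>
        if k ∈ insert t c ∧ b = true then (0 : ℂ) else 1) * b := ⟨_, rfl⟩
      rw [← hm]
      have hmt : ∀ r s, m t r s = if r = s then 1 / 2 else -(1 / 2) := fun r s => by
        rw [← nmH_conj, hm, hb]
        simp
      have hmc : ∀ k ∈ c, ∀ r s, m k r s = if r = true ∧ s = true then 1 else 0 :=
        fun k hk r s => by
        have hkt : k ≠ t := fun e => ht (e ▸ hk)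
        rw [← nmX_conj, hm, hb]
        simp [hk, hkt]
      have hm1 : ∀ k, k ≠ t → k ∉ c → m k = 1 := fun k hkt hk => by
        rw [hm, hb]
        simp [hk, hkt]
      ext z y
      rw [Matrix.sub_apply, Matrix.smul_apply, smul_eq_mul]
      by_cases hy : ∀ k ∈ c, y k = true
      · have e : ∏ k ∈ Finset.univ.erase t, m k (z k) (y k) =
            ∏ k ∈ Finset.univ.erase t, (1 : Matrix Bool Bool ℂ) (z k) (y k) := by
          refine Finset.prod_congr rfl fun k hk => ?_
          by_cases hkc : k ∈ c
          · rw [hmc k hkc, hy k hkc, Matrix.one_apply]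
            simp
          · rw [hm1 k (Finset.ne_of_mem_erase hk) hkc]
        rw [← tens_one, nm_tens_split _ t, nm_tens_split _ t, e]
        simp only [Pi.one_apply]
        rw [nm_prod_one, hmt, Matrix.one_apply]
        simp only [Gate.mat, Matrix.of_apply, Function.eq_update_iff, decide_eq_true hy]
        by_cases hk : ∀ k, k ≠ t → z k = y k
        · rw [if_pos hk]
          simp only [eq_true hk, and_true]
          cases z t <;> cases y t <;> norm_num
        · rw [if_neg hk, if_neg fun h => hk h.2]
          simp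
      · have e : tens m z y = 0 := by
          push Not at hy
          obtain ⟨k, hk, hk'⟩ := hy
          refine Finset.prod_eq_zero (Finset.mem_univ k) ?_
          rw [hmc k hk, if_neg fun h => hk' h.2]
        rw [e, Matrix.one_apply]
        simp [Gate.mat, decide_eq_false hy]

theorem nm_refl_comm {a : Fin N → Matrix Bool Bool ℂ} {s s' : Finset (Fin N)} (hs : Disjoint s s')
    (ha : ∀ q ∉ s, a q = 1) {G : Finset (Finset (Fin N))} (hG : ∀ g ∈ G, g ⊆ s') :
    tens a * refl G = refl G * tens a := by
  refine tens_comm_diagonal ha fun z y h => Finset.prod_congr rfl fun g hg => ?_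
  have e : cnt g z = cnt g y := by
    unfold cnt
    rw [Finset.filter_congr fun q hq => by
      rw [h q fun hq' => Finset.disjoint_left.1 hs hq' (hG g hg hq)]]
  rw [e]

theorem nm_list_nf (l : List (Gate N)) (hl : l.Pairwise fun g g' => Disjoint g.supp g'.supp) :
    ∃ (s : Finset (Fin N)) (a b : Fin N → Matrix Bool Bool ℂ) (G : Finset (Finset (Fin N))),
      (∀ q ∈ s, ∃ g ∈ l, q ∈ g.supp) ∧ Uni a ∧ Uni b ∧ Disj G ∧ (∀ q ∉ s, a q = 1 ∧ b q = 1) ∧
        (∀ g ∈ G, g.Nonempty ∧ g ⊆ s) ∧ (l.map Gate.mat).prod = tens a * refl G * tens b := by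
  induction l with
  | nil =>
    exact ⟨∅, 1, 1, ∅, by simp, uni_one, uni_one, nm_disj_empty, fun _ _ => ⟨rfl, rfl⟩, by simp,
      by simp [nm_refl_empty, tens_one]⟩
  | cons g l ih =>
    rw [List.pairwise_cons] at hl
    obtain ⟨s', a', b', G', hs', ha', hb', hG', h1', hsub', he'⟩ := ih hl.2
    obtain ⟨a, b, G, ha, hb, hG, h1, hsub, he⟩ := gate_nf g
    have hd : Disjoint g.supp s' := Finset.disjoint_left.2 fun q hq hq' => by
      obtain ⟨g', hg', hq''⟩ := hs' q hq'
      exact Finset.disjoint_left.1 (hl.1 g' hg') hq hq''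
    have hGG : ∀ x ∈ G, ∀ y ∈ G', Disjoint x y := fun x hx y hy =>
      hd.mono (hsub x hx).2 (hsub' y hy).2
    refine ⟨g.supp ∪ s', a * a', b * b', G ∪ G', fun q hq => ?_, ha.mul ha', hb.mul hb', ?_,
      fun q hq => ?_, fun x hx => ?_, ?_⟩
    · rcases Finset.mem_union.1 hq with hq | hq
      · exact ⟨g, List.mem_cons_self, hq⟩
      · obtain ⟨g', hg', hq'⟩ := hs' q hq
        exact ⟨g', List.mem_cons_of_mem _ hg', hq'⟩
    · intro x hx y hy hxy
      rcases Finset.mem_union.1 hx with hx | hx <;> rcases Finset.mem_union.1 hy with hy | hy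
      exacts [hG x hx y hy hxy, hGG x hx y hy, (hGG y hy x hx).symm, hG' x hx y hy hxy]
    · rw [Finset.mem_union, not_or] at hq
      simp [h1 q hq.1, h1' q hq.2]
    · rcases Finset.mem_union.1 hx with hx | hx
      · exact ⟨(hsub x hx).1, (hsub x hx).2.trans Finset.subset_union_left⟩
      · exact ⟨(hsub' x hx).1, (hsub' x hx).2.trans Finset.subset_union_right⟩
    · have e1 : tens b * tens a' = tens a' * tens b := by
        rw [tens_mul, tens_mul]
        congr 1
        funext q
        by_cases hq : q ∈ g.supp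
        · simp [(h1' q (Finset.disjoint_left.1 hd hq)).1]
        · simp [(h1 q hq).2]
      have e2 : tens a' * refl G = refl G * tens a' :=
        nm_refl_comm hd.symm (fun q hq => (h1' q hq).1) fun x hx => (hsub x hx).2
      have e3 : tens b * refl G' = refl G' * tens b :=
        nm_refl_comm hd (fun q hq => (h1 q hq).2) fun x hx => (hsub' x hx).2
      have e4 : refl (G ∪ G') = refl G * refl G' := by
        have hdis : Disjoint G G' := Finset.disjoint_left.2 fun x hx hx' => by
          obtain ⟨q, hq⟩ := (hsub x hx).1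
          exact Finset.disjoint_left.1 (hGG x hx x hx') hq hq
        simp only [refl, diagonal_mul_diagonal, Finset.prod_union hdis]
      rw [List.map_cons, List.prod_cons, he, he', ← tens_mul, ← tens_mul, e4]
      calc tens a * refl G * tens b * (tens a' * refl G' * tens b')
          = tens a * refl G * (tens b * tens a') * refl G' * tens b' := by
            simp only [mul_assoc]
        _ = tens a * (refl G * tens a') * (tens b * refl G') * tens b' := by
            rw [e1]
            simp only [mul_assoc]
        _ = _ := by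
            rw [← e2, e3]
            simp only [mul_assoc]

theorem layer_nf (L : Layer N) :
    ∃ (a b : Fin N → Matrix Bool Bool ℂ) (G : Finset (Finset (Fin N))),
      Uni a ∧ Uni b ∧ Disj G ∧ L.mat = tens a * refl G * tens b := by
  obtain ⟨s, a, b, G, -, ha, hb, hG, -, -, he⟩ := nm_list_nf L.gates L.disj
  exact ⟨a, b, G, ha, hb, hG, he⟩

theorem nm_C_congr {c c' : NF (Fin N)} (j : ℕ) (hV : ∀ i ≤ j, c.V i = c'.V i)
    (hG : ∀ i < j, c.G i = c'.G i) : c.C j = c'.C j := by
  induction j with
  | zero => rw [NF.C, NF.C, hV 0 le_rfl]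
  | succ j ih =>
    rw [NF.C, NF.C, NF.U, NF.U, hV _ le_rfl, hG j (Nat.lt_succ_self j),
      ih (fun i hi => hV i (hi.trans (Nat.le_succ j))) fun i hi => hG i (hi.trans (Nat.lt_succ_self j))]

theorem nm_extend (c : NF (Fin N)) (n : ℕ) {a b : Fin N → Matrix Bool Bool ℂ}
    {G : Finset (Finset (Fin N))} (ha : Uni a) (hb : Uni b) (hG : Disj G) :
    ∃ c' : NF (Fin N), c'.C (n + 1) = tens a * refl G * tens b * c.C n := by
  obtain ⟨c', hV, hG'⟩ : ∃ c' : NF (Fin N),
      (∀ i, c'.V i = if i = n + 1 then a else if i = n then b * c.V n else c.V i) ∧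
        ∀ i, c'.G i = if i = n then G else c.G i := by
    refine ⟨⟨fun i => if i = n + 1 then a else if i = n then b * c.V n else c.V i,
      fun i => if i = n then G else c.G i, fun i => ?_, fun i => ?_⟩, fun _ => rfl, fun _ => rfl⟩
    · split_ifs
      exacts [ha, hb.mul (c.hV n), c.hV i]
    · split_ifs
      exacts [hG, c.hG i]
  have e : c'.C n = tens b * c.C n := by
    cases n with
    | zero => rw [NF.C, NF.C, hV, tens_mul]; simp
    | succ m =>
      have e' : c'.C m = c.C m := nm_C_congr m
        (fun i hi => by rw [hV, if_neg (by omega), if_neg (by omega)])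
        fun i hi => by rw [hG', if_neg (by omega)]
      rw [NF.C, NF.C, NF.U, NF.U, e', hV, hG', if_neg (by omega), if_pos rfl, if_neg (by omega),
        ← tens_mul]
      simp only [mul_assoc]
  refine ⟨c', ?_⟩
  rw [NF.C, NF.U, e, hV, hG', if_pos rfl, if_pos rfl]
  simp only [mul_assoc]

theorem exists_nf (C : List (Layer N)) {d : ℕ} (hd : C.length ≤ d)
    {a : Fin N → Matrix Bool Bool ℂ} (ha : Uni a) :
    ∃ c : NF (Fin N), c.C d = circMat C * tens a := by
  induction d, hd using Nat.le_induction with
  | base =>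
    induction C using List.reverseRecOn with
    | nil => exact ⟨⟨fun _ => a, fun _ => ∅, fun _ => ha, fun _ => nm_disj_empty⟩, by
        simp [NF.C, circMat]⟩
    | append_singleton C L ih =>
      obtain ⟨c, hc⟩ := ih
      obtain ⟨a', b', G, ha', hb', hG, he⟩ := layer_nf L
      obtain ⟨c', hc'⟩ := nm_extend c C.length ha' hb' hG
      refine ⟨c', ?_⟩
      rw [List.length_append, List.length_singleton, hc', hc, ← he]
      simp [circMat, mul_assoc]
  | succ d _ ih =>
    obtain ⟨c, hc⟩ := ih
    obtain ⟨c', hc'⟩ := nm_extend c d uni_one uni_one nm_disj_empty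
    exact ⟨c', by rw [hc', hc, nm_refl_empty, tens_one, one_mul, one_mul, one_mul]⟩

end Vale.Agent.P368
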