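import Vale.Agent.P368.Asym
import Vale.Agent.P368.Normal

/-!
# Parity

For `y : Bits N` let `a y q = (1/√2) [[1, 1], [s, -s]]`, `s = (-1)^(y q)`, on input qubits and `1` on ancillas.
With `O = Uᴴ * sign * U` (`U = circMat C`, `sign` as in `loc_sign`) and `e = input (fun _ => true)`,
`∑_y ((tens (a y))ᴴ * O * tens (a y)) e 0 = 2^(N-n) ∑_x (-1)^|x| O (input x) (input x)` (`Finset.prod_univ_sum`),
and `(-1)^|x| O (input x) (input x) = prob (par x) - prob (!par x)`.  Each term on the left is at most `ε`
by `exists_nf` and `main_nf`.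
-/

namespace Vale.Agent.P368

open Matrix

/-- The one-qubit unitaries preparing `|±⟩`. -/
noncomputable def fnH (s : Bool) : Matrix Bool Bool ℂ :=
  Matrix.of fun r c => if r = true ∧ s ≠ c then -⟨1 / 2, 1 / 2⟩ else ⟨1 / 2, 1 / 2⟩

theorem fnH_mem (s : Bool) : fnH s ∈ Matrix.unitaryGroup Bool ℂ := by
  rw [Matrix.mem_unitaryGroup_iff']
  ext r c
  cases s <;> cases r <;> cases c <;> simp [fnH, Matrix.mul_apply, Complex.ext_iff] <;> norm_num

theorem fnH_sum (r r' : Bool) : ∑ s, star (fnH s r true) * fnH s r' false =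
    if r = r' then (if r = true then -1 else 1) else 0 := by
  cases r <;> cases r' <;> simp [fnH, Complex.ext_iff] <;> norm_num

theorem fn_one_sum (r r' : Bool) :
    ∑ _s : Bool, star ((1 : Matrix Bool Bool ℂ) r false) * (1 : Matrix Bool Bool ℂ) r' false =
      if r = r' then (if r = true then 0 else 2) else 0 := by
  cases r <;> cases r' <;> simp

/-- The weight of a basis state. -/
noncomputable def fnW (n : ℕ) {N : ℕ} (z : Bits N) : ℂ :=
  ∏ q : Fin N, if q.1 < n then (if z q = true then -1 else 1) else if z q = true then 0 else 2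

/-- The vacua. -/
noncomputable def fnA (n : ℕ) {N : ℕ} (y : Bits N) (q : Fin N) : Matrix Bool Bool ℂ :=
  if q.1 < n then fnH (y q) else 1

theorem fnA_uni (n : ℕ) {N : ℕ} (y : Bits N) : Uni (fnA n y) := fun q => by
  unfold fnA
  split_ifs
  exacts [fnH_mem _, one_mem _]

theorem fnA_sum (n : ℕ) {N : ℕ} (z w : Bits N) :
    ∑ y : Bits N, star (tens (fnA n y) z (input N fun _ : Fin n => true)) *
      tens (fnA n y) w (fun _ => false) = if z = w then fnW n z else 0 := by
  have e : ∀ y : Bits N, star (tens (fnA n y) z (input N fun _ : Fin n => true)) *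
      tens (fnA n y) w (fun _ => false) =
      ∏ q : Fin N, (fun (q : Fin N) (s : Bool) =>
        star ((if q.1 < n then fnH s else 1) (z q) (input N (fun _ : Fin n => true) q)) *
          (if q.1 < n then fnH s else 1) (w q) false) q (y q) := by
    intro y
    simp only [tens, Matrix.of_apply, star_prod, ← Finset.prod_mul_distrib, fnA]
  simp only [e]
  rw [← Fintype.piFinset_univ, ← Finset.prod_univ_sum (fun _ => Finset.univ)
    fun (q : Fin N) (s : Bool) =>
      star ((if q.1 < n then fnH s else 1) (z q) (input N (fun _ : Fin n => true) q)) *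
        (if q.1 < n then fnH s else 1) (w q) false]
  have e' : ∀ q : Fin N, ∑ s : Bool,
      star ((if q.1 < n then fnH s else 1) (z q) (input N (fun _ : Fin n => true) q)) *
        (if q.1 < n then fnH s else 1) (w q) false = if z q = w q then
      (if q.1 < n then (if z q = true then -1 else 1) else if z q = true then 0 else 2) else 0 := by
    intro q
    by_cases hq : q.1 < n
    · simp only [if_pos hq, input, dif_pos hq]
      exact fnH_sum _ _
    · simp only [if_neg hq, input, dif_neg hq]
      exact fn_one_sum _ _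
  simp only [e']
  split_ifs with h
  · subst h
    simp [fnW]
  · obtain ⟨q, hq⟩ := Function.ne_iff.1 h
    exact Finset.prod_eq_zero (Finset.mem_univ q) (if_neg hq)

theorem fn_avg (n : ℕ) {N : ℕ} (O : Op (Fin N)) :
    ∑ y : Bits N, ((tens (fnA n y))ᴴ * O * tens (fnA n y)) (input N fun _ : Fin n => true)
      (fun _ => false) = ∑ z, fnW n z * O z z := by
  have e : ∀ y : Bits N, ((tens (fnA n y))ᴴ * O * tens (fnA n y)) (input N fun _ : Fin n => true)
      (fun _ => false) = ∑ w, ∑ z, O z w * (star (tens (fnA n y) z (input N fun _ : Fin n => true)) *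
        tens (fnA n y) w (fun _ => false)) := by
    intro y
    simp only [Matrix.mul_apply, Matrix.conjTranspose_apply, Finset.sum_mul]
    exact Finset.sum_congr rfl fun w _ => Finset.sum_congr rfl fun z _ => by ring
  simp only [e]
  rw [Finset.sum_comm]
  refine Finset.sum_congr rfl fun w _ => ?_
  rw [Finset.sum_comm]
  simp only [← Finset.mul_sum, fnA_sum, mul_ite, mul_zero, Finset.sum_ite_eq', Finset.mem_univ,
    if_true]
  ring

theorem fn_input_inj {n N : ℕ} (hn : n ≤ N) : Function.Injective (input N : (Fin n → Bool) → _) := by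
  intro x x' h
  funext i
  have := congrFun h (Fin.castLE hn i)
  simpa [input] using this

theorem fnW_input (n m : ℕ) (x : Fin n → Bool) :
    fnW n (input (n + m) x) = 2 ^ m * if par x = true then -1 else 1 := by
  rw [fnW, Fin.prod_univ_add, mul_comm]
  congr 1
  · simp [input]
  · have e : ∀ i : Fin n, input (n + m) x (Fin.castAdd m i) = x i := fun i => by simp [input]
    simp only [e, Fin.val_castAdd, Fin.is_lt, if_true]
    rw [Finset.prod_ite, Finset.prod_const, Finset.prod_const_one, mul_one, par]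
    by_cases h : Odd (Finset.univ.filter fun i => x i = true).card
    · rw [h.neg_one_pow, decide_eq_true h, if_pos rfl]
    · rw [(Nat.not_odd_iff_even.1 h).neg_one_pow, decide_eq_false h]
      simp

theorem fn_sum_input (n m : ℕ) (f : Bits (n + m) → ℂ) : ∑ z, fnW n z * f z =
    2 ^ m * ∑ x : Fin n → Bool, (if par x = true then -1 else 1) * f (input (n + m) x) := by
  rw [Finset.mul_sum]
  symm
  refine Finset.sum_of_injOn (input (n + m)) (fn_input_inj (Nat.le_add_right n m)).injOn
    (fun _ _ => Finset.mem_coe.2 (Finset.mem_univ _)) (fun z _ hz => ?_) fun x _ => ?_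
  · have h : ∃ q : Fin (n + m), ¬ q.1 < n ∧ z q = true := by
      by_contra h
      push Not at h
      refine hz ⟨fun i => z (Fin.castAdd m i), Finset.mem_coe.2 (Finset.mem_univ _), ?_⟩
      funext q
      by_cases hq : q.1 < n
      · simp only [input, dif_pos hq]
        rfl
      · simp only [input, dif_neg hq]
        simpa using h q (not_lt.1 hq)
    obtain ⟨q, hq, hq'⟩ := h
    rw [fnW, Finset.prod_eq_zero (Finset.mem_univ q) (by rw [if_neg hq, if_pos hq']), zero_mul]
  · rw [fnW_input, mul_assoc]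

theorem fn_diag {n N : ℕ} (C : List (Layer N)) (out : Fin N) (x : Fin n → Bool) :
    ((circMat C)ᴴ * (diagonal fun z : Bits N => if z out = true then (-1 : ℂ) else 1) * circMat C)
      (input N x) (input N x) = ((prob C out x false - prob C out x true : ℝ) : ℂ) := by
  rw [Matrix.mul_apply]
  simp only [Matrix.mul_diagonal, Matrix.conjTranspose_apply, prob, Finset.sum_filter]
  rw [← Finset.sum_sub_distrib, Complex.ofReal_sum]
  refine Finset.sum_congr rfl fun z _ => ?_
  have e : star (circMat C z (input N x)) * circMat C z (input N x) =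
      ((‖circMat C z (input N x)‖ ^ 2 : ℝ) : ℂ) := by
    rw [Complex.star_def, Complex.conj_mul', Complex.ofReal_pow]
  rw [mul_right_comm, e]
  cases z out <;> simp

theorem corr_le {n N : ℕ} (hn : n ≤ N) (C : List (Layer N)) (out : Fin N) {ε : ℝ}
    (h : ∀ a : Fin N → Matrix Bool Bool ℂ, Uni a →
      ‖((circMat C * tens a)ᴴ * (diagonal fun z : Bits N => if z out = true then (-1 : ℂ) else 1) *
        (circMat C * tens a)) (input N fun _ : Fin n => true) fun _ => false‖ ≤ ε) :
    |corr n C out| ≤ ε := by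
  obtain ⟨m, rfl⟩ := Nat.exists_eq_add_of_le hn
  obtain ⟨O, hO⟩ : ∃ O : Op (Fin (n + m)), O = (circMat C)ᴴ *
    (diagonal fun z : Bits (n + m) => if z out = true then (-1 : ℂ) else 1) * circMat C := ⟨_, rfl⟩
  have h1 : ∀ y : Bits (n + m), ‖((tens (fnA n y))ᴴ * O * tens (fnA n y))
      (input (n + m) fun _ : Fin n => true) fun _ => false‖ ≤ ε := fun y => by
    have := h _ (fnA_uni n y)
    rw [Matrix.conjTranspose_mul] at this
    simpa only [hO, Matrix.mul_assoc] using this
  have h2 := (norm_sum_le _ _).trans (Finset.sum_le_sum fun y (_ : y ∈ Finset.univ) => h1 y)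
  have h3 : ∀ x : Fin n → Bool, (if par x = true then -1 else 1) * O (input (n + m) x)
      (input (n + m) x) = ((prob C out x (par x) - prob C out x (!par x) : ℝ) : ℂ) := fun x => by
    rw [hO, fn_diag]
    cases par x <;> simp
  rw [fn_avg, fn_sum_input n m fun z => O z z] at h2
  simp only [h3] at h2
  rw [← Complex.ofReal_sum, norm_mul, Complex.norm_real, Real.norm_eq_abs, Finset.sum_const,
    Finset.card_univ, Fintype.card_fun, Fintype.card_bool, Fintype.card_fin, nsmul_eq_mul,
    norm_pow, Complex.norm_two, Nat.cast_pow, Nat.cast_ofNat, pow_add, mul_comm (2 ^ n : ℝ),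
    mul_assoc] at h2
  have h4 := le_of_mul_le_mul_left h2 (by positivity)
  rw [corr, abs_div, abs_of_pos (by positivity : (0 : ℝ) < 2 ^ n), div_le_iff₀ (by positivity),
    mul_comm]
  exact h4

theorem prob_add {n N : ℕ} (C : List (Layer N)) (out : Fin N) (x : Fin n → Bool) (b : Bool) :
    prob C out x b + prob C out x (!b) = 1 := by
  obtain ⟨c, hc⟩ := exists_nf C le_rfl uni_one
  have h := c.C_left C.length
  rw [hc, tens_one, mul_one] at h
  have h1 := congrFun (congrFun h (input N x)) (input N x)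
  rw [Matrix.mul_apply, Matrix.one_apply_eq] at h1
  simp only [Matrix.conjTranspose_apply, Complex.star_def, Complex.conj_mul'] at h1
  have h2 : ∑ z, ‖circMat C z (input N x)‖ ^ 2 = 1 := by exact_mod_cast h1
  rw [← h2, prob, prob, Finset.sum_filter, Finset.sum_filter, ← Finset.sum_add_distrib]
  refine Finset.sum_congr rfl fun z _ => ?_
  cases z out <;> cases b <;> simp

theorem main_corr (d p : ℕ) {ε : ℝ} (hε : 0 < ε) : ∃ n₀ : ℕ, ∀ n, n₀ ≤ n → ∀ N, n ≤ N → N ≤ n ^ p →
    ∀ (C : List (Layer N)) (out : Fin N), C.length ≤ d → |corr n C out| ≤ ε := by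
  obtain ⟨n₀, h⟩ := main_nf d p hε
  refine ⟨n₀, fun n hn N hN hNp C out hC => corr_le hN C out fun a ha => ?_⟩
  obtain ⟨c, hc⟩ := exists_nf C hC ha
  rw [← hc]
  refine h n hn (Fin N) c (by simpa using hNp) _ (loc_sign out) _ ?_
  unfold cnt
  conv_lhs => rw [← Fintype.card_fin n, ← Finset.card_univ]
  refine Finset.card_le_card_of_injOn (Fin.castLE hN) (fun i _ => ?_)
    (Fin.castLE_injective hN).injOn
  simp [input]

theorem fn_poly_le (p : Polynomial ℕ) : ∃ k, ∀ n, 2 ≤ n → p.eval n ≤ n ^ k := by
  induction p using Polynomial.induction_on' with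
  | add p q hp hq =>
    obtain ⟨k, hk⟩ := hp
    obtain ⟨k', hk'⟩ := hq
    refine ⟨k + k' + 1, fun n hn => ?_⟩
    have h1 : n ^ k ≤ n ^ (k + k') := Nat.pow_le_pow_right (by omega) (by omega)
    have h2 : n ^ k' ≤ n ^ (k + k') := Nat.pow_le_pow_right (by omega) (by omega)
    have h3 := hk n hn
    have h4 := hk' n hn
    rw [Polynomial.eval_add, pow_succ]
    nlinarith
  | monomial i c =>
    refine ⟨c + i, fun n hn => ?_⟩
    rw [Polynomial.eval_monomial, pow_add]
    exact Nat.mul_le_mul_right _ (Nat.lt_pow_self (by omega)).le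

theorem main_family : ¬ ∃ (d : ℕ) (p : Polynomial ℕ) (ε : ℝ) (N : ℕ → ℕ)
    (C : ∀ n, List (Layer (N n))) (out : ∀ n, Fin (N n)), 0 < ε ∧
      (∀ n, n ≤ N n ∧ N n ≤ p.eval n ∧ (C n).length ≤ d) ∧
      ∀ n (x : Fin n → Bool), 1 / 2 + ε ≤ prob (C n) (out n) x (par x) := by
  rintro ⟨d, p, ε, N, C, out, hε, h1, h2⟩
  obtain ⟨k, hk⟩ := fn_poly_le p
  obtain ⟨n₀, h⟩ := main_corr d k hε
  obtain ⟨n, hn, hn'⟩ : ∃ n, n₀ ≤ n ∧ 2 ≤ n := ⟨max n₀ 2, le_max_left _ _, le_max_right _ _⟩
  have h3 := (abs_le.1 (h n hn (N n) (h1 n).1 ((h1 n).2.1.trans (hk n hn')) (C n) (out n)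
    (h1 n).2.2)).2
  have h4 : ∑ _x : Fin n → Bool, 2 * ε ≤
      ∑ x : Fin n → Bool, (prob (C n) (out n) x (par x) - prob (C n) (out n) x (!par x)) :=
    Finset.sum_le_sum fun x _ => by
      have := prob_add (C n) (out n) x (par x)
      have := h2 n x
      linarith
  rw [Finset.sum_const, Finset.card_univ, Fintype.card_fun, Fintype.card_bool, Fintype.card_fin,
    nsmul_eq_mul, Nat.cast_pow, Nat.cast_ofNat] at h4
  rw [corr, div_le_iff₀ (by positivity)] at h3
  have h5 : (0 : ℝ) < 2 ^ n * ε := by positivity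
  linarith

end Vale.Agent.P368
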